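import Vale.Agent.P141.H482.CutN
import Vale.Agent.P141.H103.MidK
import Vale.Agent.P141.H206.EN2
import Vale.Agent.P141.PL.H804.Glue

/-!
# P141, line W: the labelled sharp count in the letters of the node Gram

`X z = QW k k (u x y l * G (z, x, y)) 1 n m`: its eigenvalues are the squares of the normalised
singular values of the slice.  `cube_hi`: the sum over the slices of a cube of the squares of the
eigenvalues above `τ ^ 2`, for a uniform slot.
-/

namespace Vale.Agent.P141.H482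

open Finset Matrix Vale.Agent.P075
open Vale.Agent.P141.PL (Pt iv)
open Vale.Agent.P141.PL.H315 (avg avg_nonneg)
open Vale.Agent.P141.H550 Vale.Agent.P141.H769 Vale.Agent.P141.H922
open Vale.Agent.P141.H834 (UnifP LineB gf)
open Vale.Agent.P141.H48 (BSl BUn)
open Vale.Agent.P141.H204
open Vale.Agent.P141.H103 (QW)

noncomputable section

section gram

variable {κ : Type*} [Fintype κ] [DecidableEq κ]

theorem exists_val {k : ℕ} {m x : ℤ} (hx : x ∈ iv k m) : ∃ i : Ix k, x = 2 ^ k * m + (val k i : ℤ) := by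
  rw [iv, mem_Ico] at hx
  obtain ⟨j, hj⟩ : ∃ j : ℕ, (j : ℤ) = x - 2 ^ k * m := ⟨(x - 2 ^ k * m).toNat, by omega⟩
  have hj2 : j < 2 ^ k := by
    have : (j : ℤ) < 2 ^ k := by omega
    exact_mod_cast this
  have h1 := sum_val k (fun a => if a = j then (1 : ℝ) else 0)
  have h2 : ∑ a ∈ Finset.range (2 ^ k), (if a = j then (1 : ℝ) else 0) = 1 := by
    rw [Finset.sum_ite_eq', if_pos (Finset.mem_range.mpr hj2)]
  by_contra hne
  push Not at hne
  have h3 : ∑ i : Ix k, (if val k i = j then (1 : ℝ) else 0) = 0 := by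
    refine Finset.sum_eq_zero fun i _ => ?_
    rw [if_neg]
    intro he
    apply hne i
    rw [he, hj]
    ring
  rw [h3, h2] at h1
  norm_num at h1

omit [Fintype κ] [DecidableEq κ] in
theorem card_ivr (k : ℕ) (m : ℤ) : ((iv k m).card : ℝ) = 2 ^ k := by
  rw [PL.card_iv]; push_cast; rfl

/-- the eigenvectors as functions on the interval -/
def ev {k : ℕ} {X : Matrix (Ix k) (Ix k) ℝ} (hX : X.IsHermitian) (m : ℤ) (y : ℤ) (i : Ix k) : ℝ :=
  ∑ j, if y = 2 ^ k * m + val k j then hX.eigenvectorBasis i j else 0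

theorem ev_val {k : ℕ} {X : Matrix (Ix k) (Ix k) ℝ} (hX : X.IsHermitian) (m : ℤ) (j i : Ix k) :
    ev hX m (2 ^ k * m + val k j) i = hX.eigenvectorBasis i j := by
  unfold ev
  rw [sum_eq_single j]
  · rw [if_pos rfl]
  · intro j' _ hj'
    rw [if_neg]
    intro h
    have h1 : (val k j : ℤ) = val k j' := by linarith
    exact hj' (PL.H804.val_inj k (by exact_mod_cast h1.symm))
  · simp

theorem eig_orth {k : ℕ} {X : Matrix (Ix k) (Ix k) ℝ} (hX : X.IsHermitian) (i i' : Ix k) :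
    ∑ j, hX.eigenvectorBasis i j * hX.eigenvectorBasis i' j = if i = i' then 1 else 0 := by
  have h := orthonormal_iff_ite.1 hX.eigenvectorBasis.orthonormal i i'
  rw [← h, PiLp.inner_apply]
  refine sum_congr rfl fun j _ => ?_
  simp [mul_comm]

theorem eig_exp {k : ℕ} {X : Matrix (Ix k) (Ix k) ℝ} (hX : X.IsHermitian) (j j' : Ix k) :
    X j j' = ∑ i, hX.eigenvalues i * (hX.eigenvectorBasis i j * hX.eigenvectorBasis i j') := by
  have h := hX.spectral_theorem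
  rw [Unitary.conjStarAlgAut_apply] at h
  have h2 := congrFun (congrFun h j) j'
  rw [h2, mul_apply]
  refine sum_congr rfl fun i _ => ?_
  rw [mul_diagonal, star_eq_conjTranspose, conjTranspose_apply]
  simp only [IsHermitian.eigenvectorUnitary_apply, Function.comp_apply, RCLike.ofReal_real_eq_id,
    id_eq, star_trivial]
  ring

/-- **the spectral data of a slice from the node Gram** -/
theorem sp_of_qw {k : ℕ} {n m z : ℤ} {u : κ → ℤ → ℤ → ℝ} {G : ℤ × ℤ × ℤ → ℝ}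
    {X : Matrix (Ix k) (Ix k) ℝ}
    (hq : X = QW k k (fun x y l => u l x y * G (x, y, z)) (fun _ => (1 : Matrix κ κ ℝ)) n m)
    (hX : X.IsHermitian) (hn : ∀ i, 0 ≤ hX.eigenvalues i) :
    Sp (iv k n) (iv k m) u G z (ev hX m) hX.eigenvalues where
  orth i i' := by
    rw [PL.H588.sum_iv]
    simp only [ev_val]
    exact eig_orth hX i i'
  nn := hn
  gram y hy y' hy' := by
    obtain ⟨j, rfl⟩ := exists_val hy
    obtain ⟨j', rfl⟩ := exists_val hy'
    simp only [ev_val]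
    rw [← eig_exp hX j j', hq]
    have hc : ((iv k m).card : ℝ) = 2 ^ k := card_ivr k m
    have hc' : ((iv k n).card : ℝ) = 2 ^ k := card_ivr k n
    unfold avg QW
    rw [hc, hc', mul_inv]
    have h2 : (0 : ℝ) < 2 ^ k := by positivity
    have e1 : ∀ x, ((fun l => u l x (2 ^ k * m + val k j) * G (x, 2 ^ k * m + val k j, z)) ⬝ᵥ
        (1 : Matrix κ κ ℝ) *ᵥ fun l => u l x (2 ^ k * m + val k j') *
          G (x, 2 ^ k * m + val k j', z)) =
        ∑ l, mt u G z l x (2 ^ k * m + val k j) * mt u G z l x (2 ^ k * m + val k j') := by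
      intro x
      rw [one_mulVec]
      rfl
    simp only [e1]
    field_simp

end gram

section cube

variable {κ : Type*} [Fintype κ] [DecidableEq κ]

/-- the right side -/
def bd (d e h τ a b : ℝ) : ℝ :=
  8 * ((24 * d) ^ 8 * a ^ 8 * (h ^ 2 * e) / τ ^ 6 + (12 * d) ^ 4 * b ^ 4 * (h ^ 2 * e) / τ ^ 2)

/-- **One cube**: slices in the first coordinate of `G`, outer `x` the second, middle `y` the
third one. -/
theorem cube_hi {k : ℕ} {i0 n m : ℤ} {u : κ → ℤ → ℤ → ℝ} {G : ℤ × ℤ × ℤ → ℝ} {τ d e h : ℝ}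
    (hτ : 0 < τ) (hd : 0 ≤ d) (he : 0 ≤ e)
    (hU : UnifP d (iv k i0) (iv k n) (iv k m) G) (hL : LineB e (iv k i0) (iv k n) (iv k m) G)
    (hu : ∀ x ∈ iv k n, ∀ y ∈ iv k m, ∑ l, u l x y ^ 2 ≤ h ^ 2)
    {X : ℤ → Matrix (Ix k) (Ix k) ℝ}
    (hq : ∀ z, X z = QW k k (fun x y l => u l x y * G (z, x, y))
      (fun _ => (1 : Matrix κ κ ℝ)) n m) (hX : ∀ z, (X z).IsHermitian) :
    ∑ z ∈ iv k i0, ∑ i, (if τ ^ 2 < (hX z).eigenvalues i then (hX z).eigenvalues i ^ 2 else 0) ≤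
      2 ^ k * bd d e h τ (nN (iv k n ×ˢ iv k m) (un u)) (n2 (iv k n ×ˢ iv k m) (un u)) := by
  have h1 := cut_s4 (G := fun q => G (q.2.2, q.1, q.2.1)) (V := fun z => ev (hX z) m)
    (D := fun z => (hX z).eigenvalues) hτ hd he (H206.iv_ne k m)
    (H573.unifP_231 hU) (H573.lineB_231 hL) hu fun z _ => sp_of_qw (hq z) (hX z) fun i => by
      have hp : (X z).PosSemidef := by rw [hq z]; exact H103.QW_psd (fun _ => PosSemidef.one) n m
      exact hp.eigenvalues_nonneg i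
  unfold avg at h1
  rw [card_ivr, inv_mul_le_iff₀ (by positivity)] at h1
  exact h1

/-- the right side is increasing in the norms -/
theorem bd_mono {d e h τ a b a' b' : ℝ} (hτ : 0 < τ) (he : 0 ≤ e) (ha : 0 ≤ a)
    (hb : 0 ≤ b) (h1 : a ≤ a') (h2 : b ≤ b') : bd d e h τ a b ≤ bd d e h τ a' b' := by
  unfold bd
  have k1 : a ^ 8 ≤ a' ^ 8 := pow_le_pow_left₀ ha h1 8
  have k2 : b ^ 4 ≤ b' ^ 4 := pow_le_pow_left₀ hb h2 4
  have k3 : 0 ≤ h ^ 2 * e := by positivity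
  have k4 : 0 ≤ (24 * d) ^ 8 := by positivity
  have k5 : 0 ≤ (12 * d) ^ 4 := by positivity
  gcongr

variable {N : ℕ} {t e cP : ℝ} {F : ℕ → Pt → ℝ} {Q : ℕ → Pt → Prop}

/-- the uniformity of a slot on a cube -/
theorem unifP_of (hU : BUn N t F) {k : ℕ} (hk : k < N) (m : Pt) :
    UnifP t (iv k m.1) (iv k m.2.1) (iv k m.2.2) (F (k + 1)) := by
  have h2 := H944.unifP_of_sum (k := k) (q := (2 ^ k * m.1, 2 ^ k * m.2.1, 2 ^ k * m.2.2))
    (d := t) (G := F (k + 1)) fun u => hU k hk _ u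
  simp only [H206.iv_eq] at h2
  exact h2

/-- **A uniform slot, one cube**, outer the second coordinate, middle the third one. -/
theorem slot_hi (ht : 0 ≤ t) (he : 0 ≤ e) (hB : BSl N e cP F Q) (hU : BUn N t F) {k : ℕ}
    (hk : k < N) (i0 n m : ℤ) {u : κ → ℤ → ℤ → ℝ} {τ h : ℝ} (hτ : 0 < τ)
    (hu : ∀ x ∈ iv k n, ∀ y ∈ iv k m, ∑ l, u l x y ^ 2 ≤ h ^ 2)
    {X : ℤ → Matrix (Ix k) (Ix k) ℝ}
    (hq : ∀ z, X z = QW k k (fun x y l => u l x y * F (k + 1) (z, x, y))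
      (fun _ => (1 : Matrix κ κ ℝ)) n m) (hX : ∀ z, (X z).IsHermitian) :
    ∑ z ∈ iv k i0, ∑ i, (if τ ^ 2 < (hX z).eigenvalues i then (hX z).eigenvalues i ^ 2 else 0) ≤
      2 ^ k * bd t e h τ (nN (iv k n ×ˢ iv k m) (un u)) (n2 (iv k n ×ˢ iv k m) (un u)) :=
  cube_hi hτ ht he (unifP_of hU hk (i0, n, m)) (H206.lineB_of hB hk (i0, n, m)) hu hq hX

/-- **A uniform slot, one cube**, outer the third coordinate, middle the second one. -/
theorem slot_hi' (ht : 0 ≤ t) (he : 0 ≤ e) (hB : BSl N e cP F Q) (hU : BUn N t F) {k : ℕ}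
    (hk : k < N) (i0 n m : ℤ) {u : κ → ℤ → ℤ → ℝ} {τ h : ℝ} (hτ : 0 < τ)
    (hu : ∀ x ∈ iv k n, ∀ y ∈ iv k m, ∑ l, u l x y ^ 2 ≤ h ^ 2)
    {X : ℤ → Matrix (Ix k) (Ix k) ℝ}
    (hq : ∀ z, X z = QW k k (fun x y l => u l x y * F (k + 1) (z, y, x))
      (fun _ => (1 : Matrix κ κ ℝ)) n m) (hX : ∀ z, (X z).IsHermitian) :
    ∑ z ∈ iv k i0, ∑ i, (if τ ^ 2 < (hX z).eigenvalues i then (hX z).eigenvalues i ^ 2 else 0) ≤
      2 ^ k * bd t e h τ (nN (iv k n ×ˢ iv k m) (un u)) (n2 (iv k n ×ˢ iv k m) (un u)) :=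
  cube_hi (G := fun q => F (k + 1) (q.1, q.2.2, q.2.1)) hτ ht he
    (H573.unifP_132 (unifP_of hU hk (i0, m, n)))
    (H573.lineB_132 (H206.lineB_of hB hk (i0, m, n))) hu hq hX

end cube

end

end Vale.Agent.P141.H482
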