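import Vale.Agent.P141.H688.LeafI
import Vale.Agent.P141.H816.FD
import Vale.Agent.P141.H215.CapW
import Vale.Agent.P141.H408.SkelTI2

/-!
# P141, line (A), (TI): the caps of the increasing part

* `bt_dom` : the Gram matrix of `Bt` is at most twice the Gram matrix of `b`;
* `capA_c`, `capB_c` : caps of the definite families `cA`, `cb`, time and scale `k`;
* `lcap : LeafC FD LCap` : the caps of `H408.Caps` with their numbers.
-/

namespace Vale.Agent.P141.H482.LCap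

open Finset Matrix
open Vale.Agent.P075 (Ix val)
open Vale.Agent.P141.PL (Pt iv ix cx mem_iv ix_ix)
open Vale.Agent.P141.PL.H315 (Tri)
open Vale.Agent.P141.PL.H588 (Xg)
open Vale.Agent.P141.H48 (US ES BSl sst cst)
open Vale.Agent.P141.H103 (un QW QW_symm QW_psd)
open Vale.Agent.P141.H205
open Vale.Agent.P141.H420 (Tr)
open Vale.Agent.P141.H677
open Vale.Agent.P141.H576 (QD kD Dd)
open Vale.Agent.P141.H215 (capV)
open Vale.Agent.P141.H305 (Cls ClsM kapM)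
open Vale.Agent.P141.H401
open Vale.Agent.P141.H408 (sq_spec Wg Wg_pd Ct Bt Caps)
open Vale.Agent.P141.H652 (Th Th_psd Th_le_two)

noncomputable section

open scoped Classical

/-! ### Gram matrices with label matrices -/

section gram

variable {κ : Type*} [Fintype κ] [DecidableEq κ]

/-- a label matrix which depends on the outer point only -/
theorem QW_T {a k : ℕ} {b b' : ℤ → ℤ → κ → ℝ} {T : ℤ → Matrix κ κ ℝ} {n m : ℤ}
    (h : ∀ x, ∀ j : Ix k, b' x (2 ^ k * m + val k j) = T x *ᵥ b x (2 ^ k * m + val k j)) :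
    QW a k b' (fun _ => 1) n m = QW a k b (fun x => (T x)ᵀ * T x) n m := by
  ext j j'
  unfold QW
  congr 1
  refine sum_congr rfl fun x _ => ?_
  rw [h x j, h x j', one_mulVec, ← mulVec_mulVec, dotProduct_mulVec (b x _), vecMul_transpose]

theorem QW_sub (a k : ℕ) (b : ℤ → ℤ → κ → ℝ) (θ : ℝ) (M : ℤ → Matrix κ κ ℝ) (n m : ℤ) :
    QW a k b (fun x => θ • (1 : Matrix κ κ ℝ) - M x) n m =
      θ • QW a k b (fun _ => 1) n m - QW a k b M n m := by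
  ext j j'
  rw [Matrix.sub_apply, Matrix.smul_apply, smul_eq_mul]
  unfold QW
  have e : ∀ x : ℤ, b x (2 ^ k * m + val k j) ⬝ᵥ (θ • (1 : Matrix κ κ ℝ) - M x) *ᵥ
      b x (2 ^ k * m + val k j') = θ * (b x (2 ^ k * m + val k j) ⬝ᵥ
        (1 : Matrix κ κ ℝ) *ᵥ b x (2 ^ k * m + val k j')) -
      b x (2 ^ k * m + val k j) ⬝ᵥ M x *ᵥ b x (2 ^ k * m + val k j') := by
    intro x
    rw [sub_mulVec, smul_mulVec, dotProduct_sub, dotProduct_smul, smul_eq_mul]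
  rw [sum_congr rfl fun x _ => e x, sum_sub_distrib, ← mul_sum]
  ring

/-- cap of a Gram matrix with a bounded weight -/
theorem psd_weight {a k : ℕ} {b : ℤ → ℤ → κ → ℝ} {c θ : ℝ} (hθ : 0 ≤ θ) {M : ℤ → Matrix κ κ ℝ}
    (hM : ∀ x, (θ • (1 : Matrix κ κ ℝ) - M x).PosSemidef) {n m : ℤ}
    (h : (c • (1 : Matrix (Ix k) (Ix k) ℝ) - QW a k b (fun _ => 1) n m).PosSemidef) :
    ((θ * c) • (1 : Matrix (Ix k) (Ix k) ℝ) - QW a k b M n m).PosSemidef := by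
  have h1 := (h.smul hθ).add (QW_psd (a := a) (k := k) (b := b) hM n m)
  rw [QW_sub] at h1
  have e : θ • (c • (1 : Matrix (Ix k) (Ix k) ℝ) - QW a k b (fun _ => 1) n m) +
      (θ • QW a k b (fun _ => 1) n m - QW a k b M n m) =
      (θ * c) • (1 : Matrix (Ix k) (Ix k) ℝ) - QW a k b M n m := by
    rw [smul_sub, smul_smul]
    abel
  rwa [e] at h1

theorem psd_up {n : Type*} [Fintype n] [DecidableEq n] {c c' : ℝ} (hc : c ≤ c')
    {X : Matrix n n ℝ} (h : (c • (1 : Matrix n n ℝ) - X).PosSemidef) :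
    (c' • (1 : Matrix n n ℝ) - X).PosSemidef := by
  have h1 := (PosSemidef.one (n := n) (R := ℝ)).smul (sub_nonneg.2 hc)
  have e : (c' - c) • (1 : Matrix n n ℝ) + (c • (1 : Matrix n n ℝ) - X) =
      c' • (1 : Matrix n n ℝ) - X := by
    rw [sub_smul]
    abel
  have h2 := h1.add h
  rwa [e] at h2

theorem GQ_eq (k : ℕ) (b : ℤ → ℤ → κ → ℝ) (n m : ℤ) :
    GQ k b n m = QW k k b (fun _ => 1) n m := by
  unfold GQ
  have e : (fun a b : κ => Classical.propDecidable (a = b)) = (inferInstance : DecidableEq κ) :=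
    Subsingleton.elim _ _
  rw [e]

omit [DecidableEq κ] in
theorem QW_smul (a k : ℕ) (b : ℤ → ℤ → κ → ℝ) (c : ℝ) (M : ℤ → Matrix κ κ ℝ) (n m : ℤ) :
    QW a k (fun x y => c • b x y) M n m = c ^ 2 • QW a k b M n m := by
  ext j j'
  rw [Matrix.smul_apply, smul_eq_mul]
  unfold QW
  rw [mul_left_comm, mul_sum (a := c ^ 2)]
  refine congrArg _ (sum_congr rfl fun x _ => ?_)
  rw [mulVec_smul, smul_dotProduct, dotProduct_smul, smul_eq_mul, smul_eq_mul]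
  ring

/-- the operator cap as a matrix inequality -/
theorem psd_capS {c : ℝ} {k : ℕ} {b : ℤ → ℤ → κ → ℝ} {n m : ℤ} (h : CapS c k k b n m) :
    (c • (1 : Matrix (Ix k) (Ix k) ℝ) - QW k k b (fun _ => 1) n m).PosSemidef := by
  have e : ∀ w : Ix k → ℝ, w ⬝ᵥ QW k k b (fun _ => 1) n m *ᵥ w ≤ c * (w ⬝ᵥ w) := by
    intro w
    have := H80.capS_form h w
    rwa [GQ_eq] at this
  refine PosSemidef.of_dotProduct_mulVec_nonneg ?_ fun w => ?_
  · rw [Matrix.IsHermitian, conjTranspose_eq_transpose_of_trivial, transpose_sub, transpose_smul,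
      transpose_one, QW_symm fun _ => transpose_one]
  rw [star_trivial, sub_mulVec, dotProduct_sub, smul_mulVec, one_mulVec, dotProduct_smul,
    smul_eq_mul, sub_nonneg]
  exact e w

/-- **The half inverse weight.** -/
theorem T_le {Θ W r : Matrix κ κ ℝ} (hΘ : Θ.PosSemidef)
    (h2 : ((2 : ℝ) • (1 : Matrix κ κ ℝ) - Θ).PosSemidef) (hr : r.PosDef) (hW : r * r = W)
    (hWΘ : (W - Θ).PosSemidef) :
    ((2 : ℝ) • (1 : Matrix κ κ ℝ) - (r⁻¹ * Θ)ᵀ * (r⁻¹ * Θ)).PosSemidef := by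
  have hrt : rᵀ = r := hr.isHermitian
  have hΘt : Θᵀ = Θ := hΘ.isHermitian
  have hd : IsUnit r.det := (Matrix.isUnit_iff_isUnit_det _).1 hr.isUnit
  refine PosSemidef.of_dotProduct_mulVec_nonneg ?_ fun w => ?_
  · rw [Matrix.IsHermitian, conjTranspose_eq_transpose_of_trivial, transpose_sub, transpose_smul,
      transpose_one, transpose_mul, transpose_transpose]
  set z := (r⁻¹ * Θ) *ᵥ w with hz
  set p := r⁻¹ *ᵥ z with hp
  have h1 : r *ᵥ p = z := by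
    rw [hp, mulVec_mulVec, mul_nonsing_inv _ hd, one_mulVec]
  have h3 : r *ᵥ z = Θ *ᵥ w := by
    rw [hz, mulVec_mulVec, ← Matrix.mul_assoc, mul_nonsing_inv _ hd, Matrix.one_mul]
  have h4 : W *ᵥ p = Θ *ᵥ w := by rw [← hW, ← mulVec_mulVec, h1, h3]
  have h5 : w ⬝ᵥ ((r⁻¹ * Θ)ᵀ * (r⁻¹ * Θ)) *ᵥ w = z ⬝ᵥ z := by
    rw [← mulVec_mulVec, dotProduct_mulVec, vecMul_transpose]
  have h6 : z ⬝ᵥ z = p ⬝ᵥ Θ *ᵥ w := by
    rw [← h4, ← hW, ← mulVec_mulVec, h1, dotProduct_mulVec p r z, ← mulVec_transpose, hrt, h1]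
  have h7 : 0 ≤ (w - p) ⬝ᵥ Θ *ᵥ (w - p) := by
    have := hΘ.dotProduct_mulVec_nonneg (w - p)
    rwa [star_trivial] at this
  have h8 : w ⬝ᵥ Θ *ᵥ p = p ⬝ᵥ Θ *ᵥ w := by
    rw [dotProduct_mulVec, ← mulVec_transpose, hΘt, dotProduct_comm]
  have h9 : 0 ≤ p ⬝ᵥ (W - Θ) *ᵥ p := by
    have := hWΘ.dotProduct_mulVec_nonneg p
    rwa [star_trivial] at this
  have h10 : 0 ≤ w ⬝ᵥ ((2 : ℝ) • (1 : Matrix κ κ ℝ) - Θ) *ᵥ w := by
    have := h2.dotProduct_mulVec_nonneg w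
    rwa [star_trivial] at this
  rw [mulVec_sub, dotProduct_sub, sub_dotProduct, sub_dotProduct, h8] at h7
  rw [sub_mulVec, dotProduct_sub, h4] at h9
  rw [sub_mulVec, smul_mulVec, one_mulVec, dotProduct_sub, dotProduct_smul, smul_eq_mul] at h10
  rw [star_trivial, sub_mulVec, smul_mulVec, one_mulVec, dotProduct_sub, dotProduct_smul,
    smul_eq_mul, h5, h6]
  linarith

end gram

/-! ### The weights of the increasing part -/

section weights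

variable {κ : Type} [Fintype κ] [DecidableEq κ]

/-- the weight is at most `3` -/
theorem Wg_le {be l : ℝ} (hbe : be ≤ 1) {N : ℕ} {S : ℤ} {G Kq : ℤ → ℕ → ℤ → Matrix κ κ ℝ}
    (h : ∀ x, Tr l N (G x) (Kq x)) (c x0 x : ℤ) (k : ℕ) (m : ℤ) :
    ((3 : ℝ) • (1 : Matrix κ κ ℝ) - Wg be l N S Kq c x0 x k m).PosSemidef := by
  have h1 := Th_le_two (M := S) (h x) c x0 x k m
  have h2 := (PosSemidef.one (n := κ) (R := ℝ)).smul (sub_nonneg.2 hbe)
  have h3 := h1.add h2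
  have e : (2 : ℝ) • (1 : Matrix κ κ ℝ) - Th l N S (Kq x) c x0 x k m +
      (1 - be) • (1 : Matrix κ κ ℝ) = (3 : ℝ) • (1 : Matrix κ κ ℝ) -
        Wg be l N S Kq c x0 x k m := by
    unfold Wg
    rw [sub_smul]
    have e3 : (3 : ℝ) • (1 : Matrix κ κ ℝ) = (2 : ℝ) • (1 : Matrix κ κ ℝ) +
      (1 : ℝ) • (1 : Matrix κ κ ℝ) := by
      rw [← add_smul]
      norm_num
    rw [e3]
    abel
  rwa [e] at h3

/-- the label matrix of `Bt` -/
def TB (be l : ℝ) (N : ℕ) (S : ℤ) (Kq : ℤ → ℕ → ℤ → Matrix κ κ ℝ) (c x0 : ℤ) (k : ℕ) (j : ℤ)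
    (x : ℤ) : Matrix κ κ ℝ := (H408.sq (Wg be l N S Kq c x0 x k j))⁻¹ * Th l N S (Kq x) c x0 x k j

theorem TB_le {be l : ℝ} (hbe : 0 < be) {N : ℕ} {S : ℤ} {G Kq : ℤ → ℕ → ℤ → Matrix κ κ ℝ}
    (h : ∀ x, Tr l N (G x) (Kq x)) (c x0 : ℤ) (k : ℕ) (j x : ℤ) :
    ((2 : ℝ) • (1 : Matrix κ κ ℝ) - (TB be l N S Kq c x0 k j x)ᵀ *
      TB be l N S Kq c x0 k j x).PosSemidef := by
  obtain ⟨h1, h2⟩ := sq_spec (Wg_pd hbe h c x0 x k j (S := S))
  refine T_le (Th_psd (h x) c x0 x k j) (Th_le_two (h x) c x0 x k j) h1 h2 ?_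
  have e : Wg be l N S Kq c x0 x k j - Th l N S (Kq x) c x0 x k j =
      be • (1 : Matrix κ κ ℝ) := by
    unfold Wg
    abel
  rw [e]
  exact PosSemidef.one.smul hbe.le

theorem QW_Bt (be l : ℝ) (N : ℕ) (S : ℤ) (Kq : ℤ → ℕ → ℤ → Matrix κ κ ℝ) (c x0 : ℤ)
    (b : ℤ → ℤ → κ → ℝ) (k a k' : ℕ) (j n m : ℤ) :
    QW a k' (Bt be l N S Kq c x0 b k j) (fun _ => 1) n m =
      QW a k' b (fun x => (TB be l N S Kq c x0 k j x)ᵀ * TB be l N S Kq c x0 k j x) n m :=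
  QW_T fun x i => by
    unfold H408.Bt TB
    rw [mulVec_mulVec]

/-- **The Gram matrix of `Bt` is at most twice the one of `b`.** -/
theorem bt_dom {be l : ℝ} (hbe : 0 < be) {N : ℕ} {S : ℤ} {G Kq : ℤ → ℕ → ℤ → Matrix κ κ ℝ}
    (h : ∀ x, Tr l N (G x) (Kq x)) (c x0 : ℤ) (b : ℤ → ℤ → κ → ℝ) (k a k' : ℕ) (j n m : ℤ) :
    ((2 : ℝ) • QW a k' b (fun _ => 1) n m -
      QW a k' (Bt be l N S Kq c x0 b k j) (fun _ => 1) n m).PosSemidef := by
  rw [QW_Bt, ← QW_sub]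
  exact QW_psd (fun x => TB_le hbe h c x0 k j x) n m

theorem capBt {be l : ℝ} (hbe : 0 < be) {N : ℕ} {S : ℤ} {G Kq : ℤ → ℕ → ℤ → Matrix κ κ ℝ}
    (h : ∀ x, Tr l N (G x) (Kq x)) (c x0 : ℤ) {b : ℤ → ℤ → κ → ℝ} {k : ℕ} {j n m : ℤ} {q : ℝ}
    (hb : CapS q k k b n m) :
    ((2 * q) • (1 : Matrix (Ix k) (Ix k) ℝ) -
      QW k k (Bt be l N S Kq c x0 b k j) (fun _ => 1) n m).PosSemidef := by
  rw [QW_Bt]
  exact psd_weight zero_le_two (fun x => TB_le hbe h c x0 k j x) (psd_capS hb)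

/-- the Gram matrix of `Ct` -/
theorem QW_Ct {be l : ℝ} (hbe : 0 < be) {N : ℕ} {S : ℤ} {G Kq : ℤ → ℕ → ℤ → Matrix κ κ ℝ}
    (h : ∀ x, Tr l N (G x) (Kq x)) (c x0 : ℤ) (C : ℤ → ℤ → κ → ℝ) (a k : ℕ) (n m : ℤ) :
    QW a k (fun x z => Ct be l N S Kq c x0 C k z x) (fun _ => 1) n m =
      QW a k (fun x z => C z x) (fun x => Wg be l N S Kq c x0 x k m) n m := by
  rw [QW_T (b := fun x z => C z x) (T := fun x => H408.sq (Wg be l N S Kq c x0 x k m))]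
  · congr 1
    funext x
    obtain ⟨h1, h2⟩ := sq_spec (Wg_pd hbe h c x0 x k m (S := S))
    have h3 : (H408.sq (Wg be l N S Kq c x0 x k m))ᵀ = H408.sq (Wg be l N S Kq c x0 x k m) :=
      h1.isHermitian
    rw [h3, h2]
  · intro x i
    have e : ix k (2 ^ k * m + (val k i : ℤ)) = m := mem_iv.1 (by
      rw [PL.iv, mem_Ico]
      have h1 : ((val k i : ℕ) : ℤ) < 2 ^ k := by exact_mod_cast Vale.Agent.P075.val_lt k i
      have h2 : (0 : ℤ) ≤ (val k i : ℤ) := by positivity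
      constructor <;> linarith)
    unfold H408.Ct
    rw [e]

end weights

/-! ### The definite families -/

section fam

variable {ι : Type} [Fintype ι] [DecidableEq ι]

theorem capS_time {κ : Type*} [Fintype κ] {Q : ℕ → ℤ → ℤ → Prop} {c : ℝ}
    {F : ℕ → ℤ → ℤ → κ → ℝ} (hc : 0 ≤ c) (hQ0 : ∀ n m, Q 0 n m) {k : ℕ} (hk : 1 ≤ k) (n m : ℤ) :
    CapS c k k (lowF Q c F k) n m := by
  obtain ⟨j, rfl⟩ := Nat.exists_eq_add_of_le' hk
  exact capS_four fun n' _ m' _ => capS_path hc hQ0 j n' m'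

theorem capA_c (p : H401.Num) (s r : ℝ) (U : Tri) (K : ℕ) (g : ℤ → ℤ → ℝ) (F1 : ℕ → Pt → ℝ)
    (Q1 : ℕ → Pt → Prop) (x0 : ℤ) {k : ℕ} (hk : 1 ≤ k) (n m : ℤ) :
    CapS (p.th s r ^ 2) k k (un (cA p s r U K g F1 Q1 x0 k)) n m := by
  unfold cA
  rw [H205.un_low1]
  exact capS_time (sq_nonneg _) (fun _ _ => Or.inl rfl) hk n m

theorem capB_c (p : H401.Num) (s r : ℝ) (U : Tri) (K : ℕ) (u : ℤ → ℤ → ι → ℝ) (F3 : ℕ → Pt → ℝ)
    (Q3 : ℕ → Pt → Prop) (x0 : ℤ) (k : ℕ) (n m : ℤ) :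
    CapS (p.th s r ^ 2) k k (cb p s r U K u F3 Q3 x0 k) n m := by
  unfold cb
  rw [H816.lowW_eq_cutG]
  refine H816.cutG_cap' (H816.isPrj_prW _ _ _) (sq_nonneg _) (fun _ _ => Or.inl rfl) ?_ k n m
  intro j n' m' _
  exact capS_path (sq_nonneg _) (fun _ _ => Or.inl rfl) j n' m'

/-- the square root of the mass -/
theorem sqrt_Lm {p : H401.Num} {s : ℝ} (ht : 0 < p.t) :
    √(p.Lm * s) = p.t ^ (-(p.d / 2)) * √s := by
  have h0 : 0 ≤ p.Lm := (Real.rpow_pos_of_pos ht _).le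
  rw [Real.sqrt_mul h0]
  congr 1
  unfold H401.Num.Lm
  rw [Real.sqrt_eq_rpow, ← Real.rpow_mul ht.le]
  congr 1
  ring

theorem t_le_y {t y d b : ℝ} (ht : 0 < t) (ht1 : t ≤ 1) (hy : 0 < y) (hyt : y ≤ t)
    (hd : d / 2 ≤ b) (hb : 0 ≤ b) : t ^ (-(d / 2)) ≤ y ^ (-b) := by
  calc t ^ (-(d / 2)) ≤ t ^ (-b) := Real.rpow_le_rpow_of_exponent_ge ht ht1 (by linarith)
    _ ≤ y ^ (-b) := Real.rpow_le_rpow_of_nonpos hy hyt (by linarith)

theorem s_four {s : ℝ} (hs : 0 < s) : (s ^ (1 / 4 : ℝ)) ^ 2 = √s := by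
  rw [Real.sqrt_eq_rpow, ← Real.rpow_natCast, ← Real.rpow_mul hs.le]
  norm_num

/-- the number of the cap of the third family, letters of `H688` -/
theorem capC_num {p : H401.Num} {s r ez : ℝ} (ht : 0 < p.t) (ht1 : p.t ≤ 1) (hd : 0 < p.d)
    (hs : 0 < s) (hr : 1 ≤ r) (hez : 0 < ez) :
    3 * capV p.Lm s ez ≤ H688.capC p (4 + p.d) s r ez ^ 2 := by
  have hy : 0 < H688.yy p r := div_pos ht (by linarith)
  have hyt : H688.yy p r ≤ p.t := div_le_self ht.le hr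
  have e3 : (H688.yy p r ^ (-(4 + p.d))) ^ 2 = H688.yy p r ^ (-(2 * (4 + p.d))) := by
    rw [← Real.rpow_natCast, ← Real.rpow_mul hy.le]
    congr 1
    push_cast
    ring
  have h1 := t_le_y (d := p.d) (b := 2 * (4 + p.d)) ht ht1 hy hyt (by linarith) (by linarith)
  unfold capV H688.capC
  rw [sqrt_Lm ht, mul_pow, mul_pow, mul_pow, Real.sq_sqrt hez.le, s_four hs, e3]
  have h2 : 0 ≤ √s * ez := by positivity
  have h3 : (12 : ℝ) ≤ (4 + p.d) ^ 2 := by nlinarith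
  calc 3 * (4 * (p.t ^ (-(p.d / 2)) * √s * ez)) = 12 * p.t ^ (-(p.d / 2)) * (√s * ez) := by ring
    _ ≤ (4 + p.d) ^ 2 * H688.yy p r ^ (-(2 * (4 + p.d))) * (√s * ez) := by
        refine mul_le_mul_of_nonneg_right ?_ h2
        exact mul_le_mul h3 h1 (Real.rpow_pos_of_pos ht _).le (by positivity)
    _ = _ := by ring

/-- the number of the cap of the third family, letters of `H408` -/
theorem capC_num' {p : H401.Num} {s r ez : ℝ} (ht : 0 < p.t) (ht1 : p.t ≤ 1) (hd4 : p.d ≤ 1)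
    (hs : 0 < s) (hr : 1 ≤ r) (hez : 0 < ez) :
    (√ez)⁻¹ ^ 2 * (3 * capV p.Lm s ez) ≤ H408.cCI p s r ^ 2 := by
  have hy : 0 < p.t / r := div_pos ht (by linarith)
  have hyt : p.t / r ≤ p.t := div_le_self ht.le hr
  have e3 : ((p.t / r)⁻¹) ^ 2 = (p.t / r) ^ (-(2 : ℝ)) := by
    rw [Real.rpow_neg hy.le, inv_pow]
    norm_num
  have h1 := t_le_y (d := p.d) (b := 2) ht ht1 hy hyt (by linarith) (by norm_num)
  unfold capV H408.cCI
  rw [sqrt_Lm ht, mul_pow, mul_pow, s_four hs, e3, inv_pow, Real.sq_sqrt hez.le]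
  have h2 : 0 ≤ √s := Real.sqrt_nonneg _
  calc ez⁻¹ * (3 * (4 * (p.t ^ (-(p.d / 2)) * √s * ez))) =
        (ez⁻¹ * ez) * (12 * p.t ^ (-(p.d / 2)) * √s) := by ring
    _ = 12 * p.t ^ (-(p.d / 2)) * √s := by rw [inv_mul_cancel₀ hez.ne', one_mul]
    _ ≤ 4 ^ 2 * (p.t / r) ^ (-(2 : ℝ)) * √s := by
        refine mul_le_mul_of_nonneg_right ?_ h2
        exact mul_le_mul (by norm_num) h1 (Real.rpow_pos_of_pos ht _).le (by positivity)
    _ = _ := by ring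

/-- **The caps of the definite families**, third slot times `c`. -/
theorem caps_all {p : H401.Num} {n K : ℕ} {ez s r P cP be c cA' cB' cC' : ℝ}
    {F1 F2 F3 : ℕ → Pt → ℝ} {Q1 Q2 Q3 : ℕ → Pt → Prop} {o : ℤ} {x : Pt} {U : Tri}
    {g : ℤ → ℤ → ℝ} {u v : ℤ → ℤ → ι → ℝ} (ht : 0 < p.t) (hs : 0 < s) (hr : 1 ≤ r)
    (hez : 0 < ez) (hK : K ≤ n) (hcls : Cls K x s r P U g u v) (q2 : BSl n ez cP F2 Q2)
    (hbe : 0 < be) (hbe1 : be ≤ 1) (hA : p.th s r ^ 2 ≤ cA' ^ 2)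
    (hB : 2 * p.th s r ^ 2 ≤ cB' ^ 2) (hC : c ^ 2 * (3 * capV p.Lm s ez) ≤ cC' ^ 2) :
    Caps (p.al U K) o K (cx K x) be (p.lam s r) u (cA p s r U K g F1 Q1)
      (cb p s r U K u F3 Q3) (fun x0 k z w => c • mC p U K v F2 x0 k z w) cA' cB' cC' := by
  have hl : (0 : ℝ) < p.lam s r := H401.Num.lam_pos ht hs hr
  refine ⟨fun x0 k hk m _ => ?_, fun x0 k hk m _ => ?_, fun x0 k hk m hm => ?_⟩
  · have h1 := capA_c p s r U K g F1 Q1 x0 (mem_Icc.1 hk).1 m.1 m.2.1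
    have h2 := psd_capS h1
    have h3 := psd_up hA h2
    rw [H103.Xg_eq]
    simp only [inv_one]
    exact h3
  · have h1 := capB_c p s r U K u F3 Q3 x0 k m.2.2 m.2.1
    have h2 := capBt (N := K) (S := (cx K x).2.1) (j := m.1) hbe (fun x => tr_T hl K u x) (o - 2)
      x0 h1
    exact psd_up hB h2
  · have hk2 := (mem_Icc.1 hk).2
    rw [mem_sN] at hm
    have hm1 := hm.1
    unfold PL.H560.cbs rv at hm1
    simp only [mem_product] at hm1
    rw [QW_Ct hbe (fun x => tr_T hl K u x), QW_smul]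
    have hLm : (0 : ℝ) ≤ p.Lm := (Real.rpow_pos_of_pos ht _).le
    have hcd := H215.cd_of_cls hcls hLm hs.le hez.le hK q2
    have h1 := H215.qw_xz hcd le_rfl le_rfl hk2 hk2 hm1.1 hm1.2.2 x0 (θ := 3) (by norm_num)
      (M := fun y => Wg be (p.lam s r) K (cx K x).2.1 (KT (p.lam s r) u) (o - 2) x0 y k m.1)
      (fun y _ => Wg_le hbe1 (fun x => tr_T hl K u x) (o - 2) x0 y k m.1)
    have h2 := h1.smul (sq_nonneg c)
    rw [smul_sub, smul_smul] at h2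
    exact psd_up hC h2

/-- **LEAF: the caps of the increasing part**, letters of `H688`. -/
theorem lcap : H688.LeafC H816.FD H688.LCap := by
  intro a _ _
  refine ⟨1, one_pos, fun e0 he0 _ => ⟨1, one_pos, fun k8 _ _ => ⟨1, one_pos, fun k3 _ _ => ?_⟩⟩⟩
  refine ⟨1, 1, one_pos, one_pos, fun c _ _ d hd _ Kt e cP L _ _ _ _ CD _ => ?_⟩
  refine ⟨2, 4 + d, one_le_two, by linarith, ?_⟩
  intro t ht ht1 n ez F1 F2 F3 _ _ _ hez o _ K hK x ι _ _ s r U g' u v hs hr hcls A b Cf hD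
  obtain ⟨Q1, Q2, Q3, _, q2, _, rfl, rfl, rfl⟩ := hD
  set p : H401.Num := ⟨a, e0, k8, k3, c, d, Kt, e, cP, L, CD, t⟩ with hp
  have hth : (0 : ℝ) < p.th s r := H401.Num.th_pos ht hs hr
  have hy : 0 < H688.yy p r := div_pos ht (by linarith)
  have hy1 : H688.yy p r ≤ 1 := (div_le_self ht.le hr).trans ht1
  have h1 := caps_all (p := p) (Q1 := Q1) (Q3 := Q3) (F1 := F1) (F3 := F3) (o := o)
    (be := H688.wB p r) (c := 1) (cA' := 2 * p.th s r) (cB' := 2 * p.th s r)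
    (cC' := H688.capC p (4 + d) s r ez) ht hs hr hez hK hcls.toCls q2
    (Real.rpow_pos_of_pos hy _) (Real.rpow_le_one hy.le hy1 (by
      show 0 ≤ e0 / 2
      linarith)) (by nlinarith) (by nlinarith)
    (by
      rw [one_pow, one_mul]
      exact capC_num (p := p) ht ht1 hd hs hr hez)
  simp only [one_smul] at h1
  exact h1

/-- **LEAF: the caps of the increasing part**, letters of `H408`. -/
theorem lcap408 : H408.LCap := by
  intro a _ _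
  refine ⟨1, one_pos, fun e0 he0 _ => ⟨1, one_pos, fun k8 _ _ => ⟨1, one_pos, fun k3 _ _ => ?_⟩⟩⟩
  intro δ _
  refine ⟨1, 1, one_pos, one_pos, fun c _ _ d hd hd1 Kt e cP L _ _ _ _ => ⟨1, zero_le_one, ?_⟩⟩
  intro t ht ht1 n ez F1 F2 F3 _ _ _ o _ K hK x ι _ _ s r U g' u v hs hr hcls Q1 Q2 Q3 _ q2 _ hez
  set p : H401.Num := ⟨a, e0, k8, k3, c, d, Kt, e, cP, L, 1, t⟩ with hp
  have hth : (0 : ℝ) < p.th s r := H401.Num.th_pos ht hs hr
  have hy : 0 < p.t / r := div_pos ht (by linarith)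
  have hy1 : p.t / r ≤ 1 := (div_le_self ht.le hr).trans ht1
  exact caps_all (p := p) (Q1 := Q1) (Q3 := Q3) (F1 := F1) (F3 := F3) (o := o)
    (be := H408.beI p r) (c := (√ez)⁻¹) (cA' := H408.tauI p s r) (cB' := H408.tauI p s r)
    (cC' := H408.cCI p s r) ht hs hr hez hK hcls.toCls q2
    (Real.rpow_pos_of_pos hy _) (Real.rpow_le_one hy.le hy1 (by
      show 0 ≤ e0 / 2
      linarith)) (by unfold H408.tauI; nlinarith) (by unfold H408.tauI; nlinarith)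
    (capC_num' (p := p) ht ht1 hd1 hs hr hez)

end fam

end

end Vale.Agent.P141.H482.LCap
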