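import Vale.Agent.P141.H204.Vec

/-!
# P141, line W: the labelled sharp count

Slices `M_z = u_l (x, y) G (x, y, z)` (rows `(l, x)`, columns `y`) of a function which is uniform
in the pair weight; `P_z` the spectral projection of `M_zᵀ M_z` to the part above `σ ^ 2`.
`cut_en`: the energy of `M P`; `cut_s4`: the fourth Schatten moment of `M P`.
-/

namespace Vale.Agent.P141.H482

open Finset
open Vale.Agent.P141.PL.H315 (avg avg_nonneg atm e12 e13 e23)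
open Vale.Agent.P141.H550 Vale.Agent.P141.H769 Vale.Agent.P141.H922
open Vale.Agent.P141.H834 (UnifP LineB gf)
open Vale.Agent.P141.H204

noncomputable section

section

variable {κ : Type*} [Fintype κ]

/-- an entry of the slice -/
def mt (u : κ → ℤ → ℤ → ℝ) (G : ℤ × ℤ × ℤ → ℝ) (z : ℤ) (l : κ) (x y : ℤ) : ℝ :=
  u l x y * G (x, y, z)

/-- the slice times the kernel `P` -/
def mp (B : Finset ℤ) (u : κ → ℤ → ℤ → ℝ) (G : ℤ × ℤ × ℤ → ℝ) (P : ℤ → ℤ → ℤ → ℝ) (z : ℤ)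
    (l : κ) (x n : ℤ) : ℝ :=
  ∑ y ∈ B, mt u G z l x y * P z y n

/-- the energy of the cut part -/
def X1 (A B C : Finset ℤ) (u : κ → ℤ → ℤ → ℝ) (G : ℤ × ℤ × ℤ → ℝ) (P : ℤ → ℤ → ℤ → ℝ) : ℝ :=
  avg C fun z => avg A fun x => avg B fun n => ∑ l, mp B u G P z l x n ^ 2

theorem X1_nonneg (A B C : Finset ℤ) (u : κ → ℤ → ℤ → ℝ) (G : ℤ × ℤ × ℤ → ℝ)
    (P : ℤ → ℤ → ℤ → ℝ) : 0 ≤ X1 A B C u G P :=
  avg_nonneg fun _ _ => avg_nonneg fun _ _ => avg_nonneg fun _ _ =>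
    sum_nonneg fun _ _ => sq_nonneg _

/-- The three properties of the spectral projection used by the test. -/
structure Prj (A B C : Finset ℤ) (u : κ → ℤ → ℤ → ℝ) (G : ℤ × ℤ × ℤ → ℝ) (σ : ℝ)
    (P : ℤ → ℤ → ℤ → ℝ) : Prop where
  sig : ∀ z ∈ C, ∀ y ∈ B, σ ^ 2 * (B.card * ∑ n ∈ B, P z y n ^ 2) ≤
    avg A fun x => ∑ l, mp B u G P z l x y ^ 2
  col : ∀ z ∈ C, ∀ y ∈ B, (avg A fun x => ∑ l, mp B u G P z l x y ^ 2) ≤
    avg A fun x => ∑ l, mt u G z l x y ^ 2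
  row : ∀ z ∈ C, ∀ x ∈ A, (avg B fun n => ∑ l, mp B u G P z l x n ^ 2) ≤
    avg B fun y => ∑ l, mt u G z l x y ^ 2

/-- the arithmetic of the test -/
theorem arith8 {σ d r f p X : ℝ} (hσ : 0 < σ) {w : ℝ} (hw : 0 ≤ w) (hX : X = w ^ 8)
    (h : σ * X ≤ 6 * d * (2 * r * f * w ^ 7 + p * f ^ 2 * w ^ 6)) :
    X ≤ (24 * d / σ) ^ 8 * r ^ 8 * f ^ 8 + (12 * d / σ) ^ 4 * p ^ 4 * f ^ 8 := by
  have h1 : 0 ≤ (24 * d / σ) ^ 8 * r ^ 8 * f ^ 8 := by positivity
  have h2 : 0 ≤ (12 * d / σ) ^ 4 * p ^ 4 * f ^ 8 := by positivity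
  rcases hw.eq_or_lt with rfl | hw
  · rw [hX]; simp only [ne_eq, OfNat.ofNat_ne_zero, not_false_eq_true, zero_pow]; positivity
  have h3 : σ * w ^ 2 ≤ 12 * d * r * f * w + 6 * d * p * f ^ 2 := by
    have h4 : 0 < w ^ 6 := by positivity
    refine le_of_mul_le_mul_right ?_ h4
    rw [hX] at h
    calc σ * w ^ 2 * w ^ 6 = σ * w ^ 8 := by ring
      _ ≤ _ := h
      _ = _ := by ring
  rcases le_total (6 * d * p * f ^ 2) (σ * w ^ 2 / 2) with h5 | h5
  · -- the first term is the larger one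
    have h6 : σ * w ^ 2 / 2 ≤ 12 * d * r * f * w := by linarith
    have h7 : w ≤ 24 * d / σ * r * f := by
      have h8 : σ * w ≤ 24 * d * r * f := by
        refine le_of_mul_le_mul_right ?_ hw
        nlinarith
      have h9 : w ≤ (24 * d * r * f) / σ := by
        rw [le_div_iff₀ hσ]; linarith
      refine h9.trans (le_of_eq ?_)
      ring
    have h8 : w ^ 8 ≤ (24 * d / σ * r * f) ^ 8 := pow_le_pow_left₀ hw.le h7 8
    rw [hX]
    calc w ^ 8 ≤ (24 * d / σ * r * f) ^ 8 := h8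
      _ = (24 * d / σ) ^ 8 * r ^ 8 * f ^ 8 := by ring
      _ ≤ _ := by linarith
  · have h7 : w ^ 2 ≤ 12 * d / σ * p * f ^ 2 := by
      have h9 : w ^ 2 ≤ (12 * d * p * f ^ 2) / σ := by
        rw [le_div_iff₀ hσ]; linarith
      refine h9.trans (le_of_eq ?_)
      ring
    have h8 : (w ^ 2) ^ 4 ≤ (12 * d / σ * p * f ^ 2) ^ 4 := pow_le_pow_left₀ (by positivity) h7 4
    rw [hX]
    calc w ^ 8 = (w ^ 2) ^ 4 := by ring
      _ ≤ (12 * d / σ * p * f ^ 2) ^ 4 := h8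
      _ = (12 * d / σ) ^ 4 * p ^ 4 * f ^ 8 := by ring
      _ ≤ _ := by linarith

/-- comparison of squares -/
theorem le_of_sq_le_sq' {a b : ℝ} (hb : 0 ≤ b) (h : a ^ 2 ≤ b ^ 2) : a ≤ b :=
  (le_abs_self a).trans (abs_le_of_sq_le_sq h hb)

/-- bound of the mixed norm -/
theorem nN_le_of {X : Type*} {Q : Finset X} {g : X → ℝ} {w f : ℝ} (hw : 0 ≤ w) (hf : 0 ≤ f)
    (h2 : n2 Q g ^ 2 ≤ w ^ 8) (h4 : n4 Q g ^ 4 ≤ f ^ 8 * w ^ 8) : nN Q g ≤ w ^ 3 * f := by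
  have k2 : n2 Q g ≤ w ^ 4 := le_of_sq_le_sq' (by positivity) (h2.trans (le_of_eq (by ring)))
  have k4 : n4 Q g ≤ f ^ 2 * w ^ 2 := by
    refine le_of_sq_le_sq' (by positivity) (le_of_sq_le_sq' (by positivity) ?_)
    calc (n4 Q g ^ 2) ^ 2 = n4 Q g ^ 4 := by ring
      _ ≤ f ^ 8 * w ^ 8 := h4
      _ = ((f ^ 2 * w ^ 2) ^ 2) ^ 2 := by ring
  refine le_of_sq_le_sq' (by positivity) ?_
  rw [nN_sq]
  calc n2 Q g * n4 Q g ≤ w ^ 4 * (f ^ 2 * w ^ 2) :=
        mul_le_mul k2 k4 (n4_nonneg _ _) (by positivity)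
    _ = (w ^ 3 * f) ^ 2 := by ring

end

section

variable {κ : Type*} [Fintype κ] [DecidableEq κ]

/-- the left test function -/
def tb (B : Finset ℤ) (u : κ → ℤ → ℤ → ℝ) (G : ℤ × ℤ × ℤ → ℝ) (P : ℤ → ℤ → ℤ → ℝ) (l : κ) (n : B)
    (r : ℤ × ℤ) : ℝ := (√(B.card : ℝ))⁻¹ * mp B u G P r.2 l r.1 n

/-- the right test function -/
def tc (B : Finset ℤ) (σ : ℝ) (P : ℤ → ℤ → ℤ → ℝ) (_ : Unit) (n : B) (r : ℤ × ℤ) : ℝ :=
  √(B.card : ℝ) * σ * P r.2 r.1 n

/-- the gauge with a trivial second label -/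
def ta (u : κ → ℤ → ℤ → ℝ) (l : κ) (_ : Unit) (r : ℤ × ℤ) : ℝ := u l r.1 r.2

/-- the Euclidean norm of the gauge -/
def un (u : κ → ℤ → ℤ → ℝ) : ℤ × ℤ → ℝ := vn fun l r => u l r.1 r.2

omit [DecidableEq κ] in
theorem vn2_ta (u : κ → ℤ → ℤ → ℝ) (r : ℤ × ℤ) : vn2 (ta u) r ^ 2 = un u r ^ 2 := by
  rw [vn2_sq, un, vn_sq]
  simp [ta]

omit [DecidableEq κ] in
theorem vn2_tb (B : Finset ℤ) (u : κ → ℤ → ℤ → ℝ) (G : ℤ × ℤ × ℤ → ℝ) (P : ℤ → ℤ → ℤ → ℝ)
    (r : ℤ × ℤ) : vn2 (tb B u G P) r ^ 2 = avg B fun n => ∑ l, mp B u G P r.2 l r.1 n ^ 2 := by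
  rw [vn2_sq]
  unfold tb avg
  rw [mul_sum, ← Finset.sum_coe_sort B fun n => (B.card : ℝ)⁻¹ * ∑ l, mp B u G P r.2 l r.1 n ^ 2,
    sum_comm]
  refine sum_congr rfl fun n _ => ?_
  rw [mul_sum]
  refine sum_congr rfl fun l _ => ?_
  rw [mul_pow, inv_pow, Real.sq_sqrt (Nat.cast_nonneg _)]

omit [Fintype κ] [DecidableEq κ] in
theorem vn2_tc (B : Finset ℤ) (σ : ℝ) (P : ℤ → ℤ → ℤ → ℝ) (r : ℤ × ℤ) :
    vn2 (tc B σ P) r ^ 2 = σ ^ 2 * (B.card * ∑ n ∈ B, P r.2 r.1 n ^ 2) := by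
  rw [vn2_sq]
  unfold tc
  rw [← Finset.sum_coe_sort B fun n => P r.2 r.1 n ^ 2]
  simp only [univ_unique, sum_const, card_singleton, one_smul]
  rw [mul_sum, mul_sum]
  refine sum_congr rfl fun n _ => ?_
  rw [mul_pow, mul_pow, Real.sq_sqrt (Nat.cast_nonneg _)]
  ring

omit [DecidableEq κ] in
/-- the test sum -/
theorem test_eq {A B C : Finset ℤ} (u : κ → ℤ → ℤ → ℝ) (G : ℤ × ℤ × ℤ → ℝ) (σ : ℝ)
    (P : ℤ → ℤ → ℤ → ℝ) (hB : B.Nonempty) :
    (avg (A ×ˢ B ×ˢ C) fun q => G q * ∑ l, ∑ m, ∑ n, ta u l m (q.1, q.2.1) *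
      tb B u G P l n (q.1, q.2.2) * tc B σ P m n (q.2.1, q.2.2)) = σ * X1 A B C u G P := by
  have hB0 : (0 : ℝ) < B.card := by exact_mod_cast hB.card_pos
  have hs : (√(B.card : ℝ))⁻¹ * √(B.card : ℝ) = 1 :=
    inv_mul_cancel₀ (Real.sqrt_ne_zero'.2 hB0)
  have e0 : ∀ x y z, (G (x, y, z) * ∑ l, ∑ m, ∑ n, ta u l m (x, y) *
      tb B u G P l n (x, z) * tc B σ P m n (y, z)) =
      σ * ∑ l, ∑ n ∈ B, mp B u G P z l x n * (mt u G z l x y * P z y n) := by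
    intro x y z
    rw [mul_sum, mul_sum]
    refine sum_congr rfl fun l _ => ?_
    rw [← Finset.sum_coe_sort B fun n => mp B u G P z l x n * (mt u G z l x y * P z y n)]
    simp only [univ_unique, sum_singleton]
    rw [mul_sum, mul_sum]
    refine sum_congr rfl fun n _ => ?_
    unfold ta tb tc mt
    simp only
    linear_combination (G (x, y, z) * u l x y * mp B u G P z l x n * σ * P z y n) * hs
  have e1 : ∀ x z, (avg B fun y => σ * ∑ l, ∑ n ∈ B, mp B u G P z l x n *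
      (mt u G z l x y * P z y n)) = σ * avg B fun n => ∑ l, mp B u G P z l x n ^ 2 := by
    intro x z
    rw [avg_mul_left]
    congr 1
    unfold avg
    congr 1
    rw [sum_comm, sum_comm (s := B) (t := univ)]
    refine sum_congr rfl fun l _ => ?_
    rw [sum_comm]
    refine sum_congr rfl fun n _ => ?_
    rw [← mul_sum, sq]
    rfl
  rw [avg_prod]
  have e2 : ∀ x, (avg (B ×ˢ C) fun r => G (x, r) * ∑ l, ∑ m, ∑ n, ta u l m ((x, r).1, (x, r).2.1) *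
      tb B u G P l n ((x, r).1, (x, r).2.2) * tc B σ P m n ((x, r).2.1, (x, r).2.2)) =
      avg C fun z => σ * avg B fun n => ∑ l, mp B u G P z l x n ^ 2 := by
    intro x
    rw [avg_prod, avg_comm]
    refine avg_congr fun z _ => ?_
    rw [← e1 x z]
    exact avg_congr fun y _ => e0 x y z
  rw [avg_congr fun x _ => e2 x, avg_comm]
  unfold X1
  rw [← avg_mul_left]
  refine avg_congr fun z _ => ?_
  rw [avg_mul_left]

/-- **The energy of the cut part**: the labelled sharp count. -/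
theorem cut_en {A B C : Finset ℤ} {u : κ → ℤ → ℤ → ℝ} {G : ℤ × ℤ × ℤ → ℝ} {P : ℤ → ℤ → ℤ → ℝ}
    {σ d e h : ℝ} (hσ : 0 < σ) (hd : 0 ≤ d) (he : 0 ≤ e) (hB : B.Nonempty)
    (hU : UnifP d A B C G) (hL : LineB e A B C G)
    (hu : ∀ x ∈ A, ∀ y ∈ B, ∑ l, u l x y ^ 2 ≤ h ^ 2) (hP : Prj A B C u G σ P) :
    X1 A B C u G P ≤ (24 * d / σ) ^ 8 * nN (A ×ˢ B) (un u) ^ 8 * (h ^ 2 * e) +
      (12 * d / σ) ^ 4 * n2 (A ×ˢ B) (un u) ^ 4 * (h ^ 2 * e) := by
  set X := X1 A B C u G P with hX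
  have hX0 : 0 ≤ X := X1_nonneg ..
  -- rows and columns
  have hmt : ∀ z l x y, mt u G z l x y ^ 2 = u l x y ^ 2 * G (x, y, z) ^ 2 := fun z l x y => by
    unfold mt; ring
  have hcol : ∀ z ∈ C, ∀ y ∈ B, (avg A fun x => ∑ l, mt u G z l x y ^ 2) ≤ h ^ 2 * e := by
    intro z hz y hy
    refine le_trans (avg_mono (g := fun x => h ^ 2 * G (x, y, z) ^ 2) fun x hx => ?_) ?_
    · simp only [hmt]
      rw [← sum_mul]
      exact mul_le_mul_of_nonneg_right (hu x hx y hy) (sq_nonneg _)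
    · rw [avg_mul_left]
      exact mul_le_mul_of_nonneg_left (hL.l1 y hy z hz) (sq_nonneg _)
  have hrow : ∀ z ∈ C, ∀ x ∈ A, (avg B fun y => ∑ l, mt u G z l x y ^ 2) ≤ h ^ 2 * e := by
    intro z hz x hx
    refine le_trans (avg_mono (g := fun y => h ^ 2 * G (x, y, z) ^ 2) fun y hy => ?_) ?_
    · simp only [hmt]
      rw [← sum_mul]
      exact mul_le_mul_of_nonneg_right (hu x hx y hy) (sq_nonneg _)
    · rw [avg_mul_left]
      exact mul_le_mul_of_nonneg_left (hL.l2 x hx z hz) (sq_nonneg _)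
  -- the norms of the tests
  have b2 : n2 (A ×ˢ C) (vn2 (tb B u G P)) ^ 2 = X := by
    rw [n2_sq, avg_prod, avg_comm, hX]
    unfold X1
    exact avg_congr fun z _ => avg_congr fun x _ => vn2_tb B u G P (x, z)
  have b4 : n4 (A ×ˢ C) (vn2 (tb B u G P)) ^ 4 ≤ h ^ 2 * e * X := by
    rw [n4_four, avg_prod, avg_comm, hX]
    unfold X1
    rw [← avg_mul_left]
    refine avg_mono fun z hz => ?_
    rw [← avg_mul_left]
    refine avg_mono fun x hx => ?_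
    rw [show vn2 (tb B u G P) (x, z) ^ 4 =
      vn2 (tb B u G P) (x, z) ^ 2 * vn2 (tb B u G P) (x, z) ^ 2 by ring, vn2_tb]
    exact mul_le_mul_of_nonneg_right ((hP.row z hz x hx).trans (hrow z hz x hx))
      (avg_nonneg fun _ _ => sum_nonneg fun _ _ => sq_nonneg _)
  have c2 : n2 (B ×ˢ C) (vn2 (tc B σ P)) ^ 2 ≤ X := by
    rw [n2_sq, avg_prod, avg_comm, hX]
    unfold X1
    refine avg_mono fun z hz => ?_
    rw [avg_comm A B]
    refine avg_mono fun y hy => ?_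
    rw [vn2_tc]
    exact hP.sig z hz y hy
  have c4 : n4 (B ×ˢ C) (vn2 (tc B σ P)) ^ 4 ≤ h ^ 2 * e * X := by
    rw [n4_four, avg_prod, avg_comm, hX]
    unfold X1
    rw [← avg_mul_left]
    refine avg_mono fun z hz => ?_
    rw [avg_comm A B, ← avg_mul_left]
    refine avg_mono fun y hy => ?_
    rw [show vn2 (tc B σ P) (y, z) ^ 4 =
      vn2 (tc B σ P) (y, z) ^ 2 * vn2 (tc B σ P) (y, z) ^ 2 by ring, vn2_tc]
    have h1 := hP.sig z hz y hy
    have h2 := (hP.col z hz y hy).trans (hcol z hz y hy)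
    have h0 : 0 ≤ σ ^ 2 * ((B.card : ℝ) * ∑ n ∈ B, P z y n ^ 2) := by positivity
    exact mul_le_mul (h1.trans h2) h1 h0 (h0.trans (h1.trans h2))
  -- eighth roots
  obtain ⟨w, hw0, hw⟩ : ∃ w : ℝ, 0 ≤ w ∧ w ^ 8 = X :=
    ⟨√√√X, Real.sqrt_nonneg _, by
      rw [show (√√√X) ^ 8 = (((√√√X) ^ 2) ^ 2) ^ 2 by ring, Real.sq_sqrt (Real.sqrt_nonneg _),
        Real.sq_sqrt (Real.sqrt_nonneg _), Real.sq_sqrt hX0]⟩
  have hhe : 0 ≤ h ^ 2 * e := by positivity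
  obtain ⟨f, hf0, hf⟩ : ∃ f : ℝ, 0 ≤ f ∧ f ^ 8 = h ^ 2 * e :=
    ⟨√√√(h ^ 2 * e), Real.sqrt_nonneg _, by
      rw [show (√√√(h ^ 2 * e)) ^ 8 = (((√√√(h ^ 2 * e)) ^ 2) ^ 2) ^ 2 by ring,
        Real.sq_sqrt (Real.sqrt_nonneg _), Real.sq_sqrt (Real.sqrt_nonneg _), Real.sq_sqrt hhe]⟩
  set r := nN (A ×ˢ B) (un u) with hr
  set p := n2 (A ×ˢ B) (un u) with hp
  have hr0 : 0 ≤ r := nN_nonneg _ _
  have hp0 : 0 ≤ p := n2_nonneg _ _
  have bN : nN (A ×ˢ C) (vn2 (tb B u G P)) ≤ w ^ 3 * f := nN_le_of hw0 hf0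
    (b2.le.trans hw.ge) (b4.trans (by rw [hf, hw]))
  have cN : nN (B ×ˢ C) (vn2 (tc B σ P)) ≤ w ^ 3 * f := nN_le_of hw0 hf0
    (c2.trans hw.ge) (c4.trans (by rw [hf, hw]))
  have b1 : n2 (A ×ˢ C) (vn2 (tb B u G P)) ≤ w ^ 4 := by
    refine le_of_sq_le_sq' (by positivity) ?_
    rw [b2, ← hw]; exact le_of_eq (by ring)
  have c1 : n2 (B ×ˢ C) (vn2 (tc B σ P)) ≤ w ^ 4 := by
    refine le_of_sq_le_sq' (by positivity) ?_
    exact c2.trans (by rw [← hw]; exact le_of_eq (by ring))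
  have hN : nN (A ×ˢ B) (vn2 (ta u)) = r := by
    unfold nN at hr ⊢
    rw [hr, n2_abs' _ (vn2_ta u), n4_abs' _ (vn2_ta u)]
  have hM : n2 (A ×ˢ B) (vn2 (ta u)) = p := n2_abs' _ (vn2_ta u)
  have key := (le_abs_self _).trans (vec_test hd hU (ta u) (tb B u G P) (tc B σ P))
  rw [test_eq u G σ P hB, hN, hM, ← hX] at key
  have hs : σ * X ≤ 6 * d * (2 * r * f * w ^ 7 + p * f ^ 2 * w ^ 6) := by
    refine key.trans (mul_le_mul_of_nonneg_left ?_ (by positivity))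
    have t1 : r * nN (A ×ˢ C) (vn2 (tb B u G P)) * n2 (B ×ˢ C) (vn2 (tc B σ P)) ≤
        r * (w ^ 3 * f) * w ^ 4 :=
      mul_le_mul (mul_le_mul_of_nonneg_left bN hr0) c1 (n2_nonneg _ _) (by positivity)
    have t2 : r * nN (B ×ˢ C) (vn2 (tc B σ P)) * n2 (A ×ˢ C) (vn2 (tb B u G P)) ≤
        r * (w ^ 3 * f) * w ^ 4 :=
      mul_le_mul (mul_le_mul_of_nonneg_left cN hr0) b1 (n2_nonneg _ _) (by positivity)
    have t3 : nN (A ×ˢ C) (vn2 (tb B u G P)) * nN (B ×ˢ C) (vn2 (tc B σ P)) * p ≤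
        (w ^ 3 * f) * (w ^ 3 * f) * p :=
      mul_le_mul_of_nonneg_right (mul_le_mul bN cN (nN_nonneg _ _) (by positivity)) hp0
    nlinarith [t1, t2, t3]
  have := arith8 hσ hw0 hw.symm hs
  rw [hf] at this
  exact this

end

/-! ### the spectral projection -/

section spec

variable {κ ι : Type*} [Fintype κ] [Fintype ι] [DecidableEq ι]

/-- **Spectral data of one slice**: `U` an orthonormal system on `B`, `d` the squares of the
(normalised) singular values. -/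
structure Sp (A B : Finset ℤ) (u : κ → ℤ → ℤ → ℝ) (G : ℤ × ℤ × ℤ → ℝ) (z : ℤ) (U : ℤ → ι → ℝ)
    (d : ι → ℝ) : Prop where
  orth : ∀ i j, ∑ y ∈ B, U y i * U y j = if i = j then 1 else 0
  nn : ∀ i, 0 ≤ d i
  gram : ∀ y ∈ B, ∀ y' ∈ B, (avg A fun x => ∑ l, mt u G z l x y * mt u G z l x y') =
    B.card * ∑ i, d i * (U y i * U y' i)

/-- the kernel of the spectral projection above `τ ^ 2` -/
def pj (τ : ℝ) (U : ℤ → ι → ℝ) (d : ι → ℝ) (y n : ℤ) : ℝ :=
  ∑ i, if τ ^ 2 < d i then U y i * U n i else 0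

omit [DecidableEq ι] in
theorem pj_eq (τ : ℝ) (U : ℤ → ι → ℝ) (d : ι → ℝ) (y n : ℤ) :
    pj τ U d y n = ∑ i, (if τ ^ 2 < d i then U y i else 0) * U n i := by
  unfold pj
  refine sum_congr rfl fun i _ => ?_
  split_ifs <;> simp

/-- Parseval -/
theorem orth_sq {B : Finset ℤ} {U : ℤ → ι → ℝ}
    (h : ∀ i j, ∑ y ∈ B, U y i * U y j = if i = j then 1 else 0) (a : ι → ℝ) :
    ∑ n ∈ B, (∑ i, a i * U n i) ^ 2 = ∑ i, a i ^ 2 := by
  calc ∑ n ∈ B, (∑ i, a i * U n i) ^ 2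
      = ∑ n ∈ B, ∑ i, ∑ j, a i * a j * (U n i * U n j) := by
        refine sum_congr rfl fun n _ => ?_
        rw [sq, sum_mul_sum]
        exact sum_congr rfl fun i _ => sum_congr rfl fun j _ => by ring
    _ = ∑ i, ∑ j, a i * a j * ∑ n ∈ B, U n i * U n j := by
        rw [sum_comm]
        refine sum_congr rfl fun i _ => ?_
        rw [sum_comm]
        exact sum_congr rfl fun j _ => by rw [mul_sum]
    _ = ∑ i, a i ^ 2 := by
        refine sum_congr rfl fun i _ => ?_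
        simp only [h, mul_ite, mul_one, mul_zero, sum_ite_eq, mem_univ, if_true]
        ring

/-- Bessel -/
theorem bessel {B : Finset ℤ} {U : ℤ → ι → ℝ}
    (h : ∀ i j, ∑ y ∈ B, U y i * U y j = if i = j then 1 else 0) (f : ℤ → ℝ) :
    ∑ i, (∑ y ∈ B, f y * U y i) ^ 2 ≤ ∑ y ∈ B, f y ^ 2 := by
  have h1 := orth_sq h (fun i => ∑ y ∈ B, f y * U y i)
  have h2 : 0 ≤ ∑ n ∈ B, (f n - ∑ i, (∑ y ∈ B, f y * U y i) * U n i) ^ 2 :=
    sum_nonneg fun _ _ => sq_nonneg _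
  have h3 : ∑ n ∈ B, (f n - ∑ i, (∑ y ∈ B, f y * U y i) * U n i) ^ 2 =
      ∑ y ∈ B, f y ^ 2 - 2 * ∑ i, (∑ y ∈ B, f y * U y i) ^ 2 +
        ∑ n ∈ B, (∑ i, (∑ y ∈ B, f y * U y i) * U n i) ^ 2 := by
    have h4 : ∑ i, (∑ y ∈ B, f y * U y i) ^ 2 =
        ∑ n ∈ B, f n * ∑ i, (∑ y ∈ B, f y * U y i) * U n i := by
      simp only [mul_sum]
      rw [sum_comm]
      refine sum_congr rfl fun i _ => ?_
      rw [sq]
      nth_rewrite 1 [sum_mul]
      exact sum_congr rfl fun n _ => by ring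
    rw [h4, mul_sum, ← sum_sub_distrib, ← sum_add_distrib]
    exact sum_congr rfl fun n _ => by ring
  rw [h3, h1] at h2
  linarith

variable {A B : Finset ℤ} {u : κ → ℤ → ℤ → ℝ} {G : ℤ × ℤ × ℤ → ℝ} {z : ℤ} {U : ℤ → ι → ℝ}
  {d : ι → ℝ}

/-- the coefficients of the rows -/
def cf (B : Finset ℤ) (u : κ → ℤ → ℤ → ℝ) (G : ℤ × ℤ × ℤ → ℝ) (z : ℤ) (U : ℤ → ι → ℝ) (l : κ)
    (x : ℤ) (i : ι) : ℝ := ∑ y ∈ B, mt u G z l x y * U y i

theorem Sp.cf_gram (h : Sp A B u G z U d) (i j : ι) :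
    (avg A fun x => ∑ l, cf B u G z U l x i * cf B u G z U l x j) =
      if i = j then B.card * d i else 0 := by
  have e1 : ∀ x, ∑ l, cf B u G z U l x i * cf B u G z U l x j =
      ∑ y ∈ B, ∑ y' ∈ B, (U y i * U y' j) * ∑ l, mt u G z l x y * mt u G z l x y' := by
    intro x
    calc ∑ l, cf B u G z U l x i * cf B u G z U l x j
        = ∑ l, ∑ y ∈ B, ∑ y' ∈ B, (U y i * U y' j) * (mt u G z l x y * mt u G z l x y') := by
          refine sum_congr rfl fun l _ => ?_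
          unfold cf
          rw [sum_mul_sum]
          exact sum_congr rfl fun y _ => sum_congr rfl fun y' _ => by ring
      _ = _ := by
          rw [sum_comm]
          refine sum_congr rfl fun y _ => ?_
          rw [sum_comm]
          exact sum_congr rfl fun y' _ => by rw [mul_sum]
  have e2 : (avg A fun x => ∑ l, cf B u G z U l x i * cf B u G z U l x j) =
      ∑ y ∈ B, ∑ y' ∈ B, (U y i * U y' j) * (B.card * ∑ k, d k * (U y k * U y' k)) := by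
    rw [avg_congr fun x _ => e1 x, avg_sum]
    refine sum_congr rfl fun y hy => ?_
    rw [avg_sum]
    refine sum_congr rfl fun y' hy' => ?_
    rw [avg_mul_left, h.gram y hy y' hy']
  rw [e2]
  calc ∑ y ∈ B, ∑ y' ∈ B, (U y i * U y' j) * (B.card * ∑ k, d k * (U y k * U y' k))
      = ∑ y ∈ B, ∑ k, ∑ y' ∈ B, (B.card * d k) * ((U y i * U y k) * (U y' j * U y' k)) := by
        refine sum_congr rfl fun y _ => ?_
        rw [sum_comm]
        refine sum_congr rfl fun y' _ => ?_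
        rw [mul_sum, mul_sum]
        exact sum_congr rfl fun k _ => by ring
    _ = ∑ k, (B.card * d k) * ((∑ y ∈ B, U y i * U y k) * ∑ y' ∈ B, U y' j * U y' k) := by
        rw [sum_comm]
        refine sum_congr rfl fun k _ => ?_
        rw [sum_mul_sum, mul_sum]
        exact sum_congr rfl fun y _ => by rw [mul_sum]
    _ = _ := by
        simp only [h.orth]
        rcases eq_or_ne i j with rfl | hij
        · rw [if_pos rfl]
          rw [sum_eq_single i]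
          · simp
          · intro k _ hk; simp [hk.symm]
          · simp
        · rw [if_neg hij]
          refine sum_eq_zero fun k _ => ?_
          rcases eq_or_ne i k with rfl | hik
          · simp [hij.symm]
          · simp [hik]

/-- a combination of the coefficients -/
theorem Sp.cf_sq (h : Sp A B u G z U d) (a : ι → ℝ) :
    (avg A fun x => ∑ l, (∑ i, a i * cf B u G z U l x i) ^ 2) = B.card * ∑ i, a i ^ 2 * d i := by
  have e1 : ∀ x, ∑ l, (∑ i, a i * cf B u G z U l x i) ^ 2 =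
      ∑ i, ∑ j, (a i * a j) * ∑ l, cf B u G z U l x i * cf B u G z U l x j := by
    intro x
    calc ∑ l, (∑ i, a i * cf B u G z U l x i) ^ 2
        = ∑ l, ∑ i, ∑ j, (a i * a j) * (cf B u G z U l x i * cf B u G z U l x j) := by
          refine sum_congr rfl fun l _ => ?_
          rw [sq, sum_mul_sum]
          exact sum_congr rfl fun i _ => sum_congr rfl fun j _ => by ring
      _ = _ := by
          rw [sum_comm]
          refine sum_congr rfl fun i _ => ?_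
          rw [sum_comm]
          exact sum_congr rfl fun j _ => by rw [mul_sum]
  rw [avg_congr fun x _ => e1 x, avg_sum, mul_sum]
  refine sum_congr rfl fun i _ => ?_
  rw [avg_sum]
  have e2 : ∀ j, (avg A fun x => (a i * a j) * ∑ l, cf B u G z U l x i * cf B u G z U l x j) =
      if i = j then B.card * (a i ^ 2 * d i) else 0 := by
    intro j
    rw [avg_mul_left, h.cf_gram]
    split_ifs with hij
    · subst hij; ring
    · ring
  rw [sum_congr rfl fun j _ => e2 j, sum_ite_eq, if_pos (mem_univ i)]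

omit [Fintype κ] [DecidableEq ι] in
theorem mp_pj (τ : ℝ) (l : κ) (x n : ℤ) (V : ℤ → ℤ → ι → ℝ) (D : ℤ → ι → ℝ) :
    mp B u G (fun z => pj τ (V z) (D z)) z l x n =
      ∑ i, (if τ ^ 2 < D z i then V z n i else 0) * cf B u G z (V z) l x i := by
  unfold mp cf
  simp only [pj_eq, mul_sum]
  rw [sum_comm]
  refine sum_congr rfl fun i _ => sum_congr rfl fun y _ => ?_
  split_ifs <;> ring

variable {C : Finset ℤ} {V : ℤ → ℤ → ι → ℝ} {D : ℤ → ι → ℝ}

theorem mp_col (h : ∀ z ∈ C, Sp A B u G z (V z) (D z)) (τ : ℝ) {z : ℤ} (hz : z ∈ C) (n : ℤ) :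
    (avg A fun x => ∑ l, mp B u G (fun z => pj τ (V z) (D z)) z l x n ^ 2) =
      B.card * ∑ i, if τ ^ 2 < D z i then V z n i ^ 2 * D z i else 0 := by
  simp only [mp_pj]
  rw [(h z hz).cf_sq]
  congr 1
  refine sum_congr rfl fun i _ => ?_
  split_ifs <;> ring

/-- the spectral projections have the three properties -/
theorem prj_pj (h : ∀ z ∈ C, Sp A B u G z (V z) (D z)) (τ : ℝ) :
    Prj A B C u G τ fun z => pj τ (V z) (D z) where
  sig z hz y hy := by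
    rw [mp_col h τ hz y]
    have e1 : ∑ n ∈ B, pj τ (V z) (D z) y n ^ 2 = ∑ i, if τ ^ 2 < D z i then V z y i ^ 2 else 0 := by
      simp only [pj_eq]
      rw [orth_sq (h z hz).orth]
      exact sum_congr rfl fun i _ => by split_ifs <;> ring
    rw [e1, mul_left_comm, mul_sum]
    refine mul_le_mul_of_nonneg_left (sum_le_sum fun i _ => ?_) (Nat.cast_nonneg _)
    split_ifs with hi
    · rw [mul_comm]
      exact mul_le_mul_of_nonneg_left hi.le (sq_nonneg _)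
    · simp
  col z hz y hy := by
    rw [mp_col h τ hz y]
    have e1 := (h z hz).gram y hy y hy
    have e2 : (avg A fun x => ∑ l, mt u G z l x y ^ 2) =
        avg A fun x => ∑ l, mt u G z l x y * mt u G z l x y :=
      avg_congr fun x _ => sum_congr rfl fun l _ => sq _
    rw [e2, e1]
    refine mul_le_mul_of_nonneg_left (sum_le_sum fun i _ => ?_) (Nat.cast_nonneg _)
    have := (h z hz).nn i
    split_ifs
    · exact le_of_eq (by ring)
    · exact mul_nonneg this (mul_self_nonneg _)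
  row z hz x hx := by
    unfold avg
    refine mul_le_mul_of_nonneg_left ?_ (by positivity)
    rw [sum_comm, sum_comm (s := B) (t := univ)]
    refine sum_le_sum fun l _ => ?_
    have e1 : ∀ n, mp B u G (fun z => pj τ (V z) (D z)) z l x n =
        ∑ i, (if τ ^ 2 < D z i then cf B u G z (V z) l x i else 0) * V z n i := by
      intro n
      rw [mp_pj]
      exact sum_congr rfl fun i _ => by split_ifs <;> ring
    simp only [e1]
    rw [orth_sq (h z hz).orth]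
    refine le_trans (sum_le_sum fun i _ => ?_) (bessel (h z hz).orth fun y => mt u G z l x y)
    split_ifs
    · exact le_of_eq rfl
    · rw [zero_pow two_ne_zero]; exact sq_nonneg _

/-- the energy of the cut part in singular values -/
theorem X1_pj (h : ∀ z ∈ C, Sp A B u G z (V z) (D z)) (hB : B.Nonempty) (τ : ℝ) :
    X1 A B C u G (fun z => pj τ (V z) (D z)) = avg C fun z => ∑ i, if τ ^ 2 < D z i then D z i
      else 0 := by
  have hB0 : (B.card : ℝ) ≠ 0 := by exact_mod_cast hB.card_pos.ne'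
  unfold X1
  refine avg_congr fun z hz => ?_
  rw [avg_comm, avg_congr fun n _ => mp_col h τ hz n, avg_mul_left]
  unfold avg
  rw [← mul_assoc, mul_inv_cancel₀ hB0, one_mul, sum_comm]
  refine sum_congr rfl fun i _ => ?_
  split_ifs with hi
  · have e := (h z hz).orth i i
    rw [if_pos rfl] at e
    rw [← sum_mul]
    have e2 : ∑ n ∈ B, V z n i ^ 2 = 1 := by
      rw [← e]; exact sum_congr rfl fun n _ => sq _
    rw [e2, one_mul]
  · simp

end spec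

/-! ### the fourth moment -/

section four

/-- dyadic levels of one singular value -/
theorem dy_le {τ D : ℝ} (hτ : 0 < τ) (h : τ ^ 2 < D) {J : ℕ} (hJ : D ≤ (2 ^ J * τ) ^ 2) :
    D ^ 2 ≤ 4 * ∑ j ∈ range J, if (2 ^ j * τ) ^ 2 < D then (2 ^ j * τ) ^ 2 * D else 0 := by
  classical
  have hex : ∃ j, D ≤ (2 ^ j * τ) ^ 2 := ⟨J, hJ⟩
  set j1 := Nat.find hex with hj1
  have h1 : D ≤ (2 ^ j1 * τ) ^ 2 := Nat.find_spec hex
  have h2 : j1 ≤ J := Nat.find_min' hex hJ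
  have h3 : j1 ≠ 0 := by
    intro h0
    rw [h0, pow_zero, one_mul] at h1
    exact absurd h (not_lt.2 h1)
  obtain ⟨j0, hj0⟩ := Nat.exists_eq_succ_of_ne_zero h3
  have h4 : (2 ^ j0 * τ) ^ 2 < D := by
    have := Nat.find_min hex (m := j0) (by omega)
    exact not_le.1 this
  have hD : 0 < D := lt_trans (by positivity) h
  have h5 : D ≤ 4 * (2 ^ j0 * τ) ^ 2 := by
    refine h1.trans (le_of_eq ?_)
    rw [hj0, Nat.succ_eq_add_one, pow_succ]; ring
  have h6 : (2 ^ j0 * τ) ^ 2 * D ≤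
      ∑ j ∈ range J, if (2 ^ j * τ) ^ 2 < D then (2 ^ j * τ) ^ 2 * D else 0 := by
    have h7 := single_le_sum (s := range J)
      (f := fun j => if (2 ^ j * τ) ^ 2 < D then (2 ^ j * τ) ^ 2 * D else 0)
      (fun j _ => by split_ifs <;> positivity) (mem_range.2 (show j0 < J by omega))
    rwa [if_pos h4] at h7
  calc D ^ 2 = D * D := sq D
    _ ≤ 4 * (2 ^ j0 * τ) ^ 2 * D := mul_le_mul_of_nonneg_right h5 hD.le
    _ = 4 * ((2 ^ j0 * τ) ^ 2 * D) := by ring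
    _ ≤ _ := by linarith

/-- the geometric sums -/
theorem geo_le {τ a b : ℝ} (hτ : 0 < τ) (ha : 0 ≤ a) (hb : 0 ≤ b) (J : ℕ) :
    ∑ j ∈ range J, (2 ^ j * τ) ^ 2 * (a / (2 ^ j * τ) ^ 8 + b / (2 ^ j * τ) ^ 4) ≤
      2 * (a / τ ^ 6 + b / τ ^ 2) := by
  have h1 : ∀ j : ℕ, (2 ^ j * τ) ^ 2 * (a / (2 ^ j * τ) ^ 8 + b / (2 ^ j * τ) ^ 4) ≤
      (1 / 2) ^ j * (a / τ ^ 6 + b / τ ^ 2) := by
    intro j
    have h2 : (0 : ℝ) < 2 ^ j := by positivity
    have h3 : (1 : ℝ) ≤ 2 ^ j := one_le_pow₀ (by norm_num)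
    have e1 : (2 ^ j * τ) ^ 2 * (a / (2 ^ j * τ) ^ 8 + b / (2 ^ j * τ) ^ 4) =
        ((2 : ℝ) ^ j)⁻¹ ^ 6 * (a / τ ^ 6) + ((2 : ℝ) ^ j)⁻¹ ^ 2 * (b / τ ^ 2) := by
      field_simp
    have h4 : ((2 : ℝ) ^ j)⁻¹ ≤ 1 := inv_le_one_of_one_le₀ h3
    have h5 : 0 ≤ ((2 : ℝ) ^ j)⁻¹ := by positivity
    have h6 : ((2 : ℝ) ^ j)⁻¹ ^ 6 ≤ ((2 : ℝ) ^ j)⁻¹ := pow_le_of_le_one h5 h4 (by norm_num)
    have h7 : ((2 : ℝ) ^ j)⁻¹ ^ 2 ≤ ((2 : ℝ) ^ j)⁻¹ := pow_le_of_le_one h5 h4 (by norm_num)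
    have h8 : (1 / 2 : ℝ) ^ j = ((2 : ℝ) ^ j)⁻¹ := by rw [one_div, inv_pow]
    rw [e1, h8, mul_add]
    have h9 : 0 ≤ a / τ ^ 6 := by positivity
    have h10 : 0 ≤ b / τ ^ 2 := by positivity
    exact add_le_add (mul_le_mul_of_nonneg_right h6 h9) (mul_le_mul_of_nonneg_right h7 h10)
  refine (sum_le_sum fun j _ => h1 j).trans ?_
  rw [← sum_mul]
  have h2 : ∑ j ∈ range J, (1 / 2 : ℝ) ^ j ≤ 2 := by
    have := Summable.sum_le_tsum (range J) (fun j _ => by positivity)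
      (summable_geometric_two)
    rwa [tsum_geometric_two] at this
  have h3 : 0 ≤ a / τ ^ 6 + b / τ ^ 2 := by positivity
  exact mul_le_mul_of_nonneg_right h2 h3

variable {κ ι : Type*} [Fintype κ] [DecidableEq κ] [Fintype ι] [DecidableEq ι]

/-- **The labelled sharp count, fourth moment of the singular values above `τ`.** -/
theorem cut_s4 {A B C : Finset ℤ} {u : κ → ℤ → ℤ → ℝ} {G : ℤ × ℤ × ℤ → ℝ} {τ d e h : ℝ}
    {V : ℤ → ℤ → ι → ℝ} {D : ℤ → ι → ℝ} (hτ : 0 < τ) (hd : 0 ≤ d) (he : 0 ≤ e)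
    (hB : B.Nonempty) (hU : UnifP d A B C G) (hL : LineB e A B C G)
    (hu : ∀ x ∈ A, ∀ y ∈ B, ∑ l, u l x y ^ 2 ≤ h ^ 2)
    (hS : ∀ z ∈ C, Sp A B u G z (V z) (D z)) :
    (avg C fun z => ∑ i, if τ ^ 2 < D z i then D z i ^ 2 else 0) ≤
      8 * ((24 * d) ^ 8 * nN (A ×ˢ B) (un u) ^ 8 * (h ^ 2 * e) / τ ^ 6 +
        (12 * d) ^ 4 * n2 (A ×ˢ B) (un u) ^ 4 * (h ^ 2 * e) / τ ^ 2) := by
  classical
  set a := (24 * d) ^ 8 * nN (A ×ˢ B) (un u) ^ 8 * (h ^ 2 * e) with ha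
  set b := (12 * d) ^ 4 * n2 (A ×ˢ B) (un u) ^ 4 * (h ^ 2 * e) with hb
  have ha0 : 0 ≤ a := by
    have := nN_nonneg (A ×ˢ B) (un u)
    positivity
  have hb0 : 0 ≤ b := by
    have := n2_nonneg (A ×ˢ B) (un u)
    positivity
  -- a top level
  obtain ⟨J, hJ⟩ : ∃ J : ℕ, ∀ z ∈ C, ∀ i, D z i ≤ (2 ^ J * τ) ^ 2 := by
    have hpos : ∀ z ∈ C, ∀ i, 0 ≤ D z i := fun z hz i => (hS z hz).nn i
    obtain ⟨J, hJ⟩ := pow_unbounded_of_one_lt ((∑ z ∈ C, ∑ i, D z i) / τ ^ 2)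
      (show (1 : ℝ) < 2 by norm_num)
    refine ⟨J, fun z hz i => ?_⟩
    have h1 : D z i ≤ ∑ z ∈ C, ∑ i, D z i :=
      (single_le_sum (fun i _ => hpos z hz i) (mem_univ i)).trans
        (single_le_sum (f := fun z => ∑ i, D z i)
          (fun z hz => sum_nonneg fun i _ => hpos z hz i) hz)
    rw [div_lt_iff₀ (by positivity)] at hJ
    have h2 : (1 : ℝ) ≤ 2 ^ J := one_le_pow₀ (by norm_num)
    have h3 : (2 : ℝ) ^ J * τ ^ 2 ≤ (2 ^ J * τ) ^ 2 := by
      have h4 : (0 : ℝ) ≤ 2 ^ J * τ ^ 2 := by positivity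
      calc (2 : ℝ) ^ J * τ ^ 2 = 1 * (2 ^ J * τ ^ 2) := (one_mul _).symm
        _ ≤ 2 ^ J * (2 ^ J * τ ^ 2) := mul_le_mul_of_nonneg_right h2 h4
        _ = (2 ^ J * τ) ^ 2 := by ring
    linarith
  have key : ∀ j : ℕ, (avg C fun z => ∑ i, if (2 ^ j * τ) ^ 2 < D z i then D z i else 0) ≤
      a / (2 ^ j * τ) ^ 8 + b / (2 ^ j * τ) ^ 4 := by
    intro j
    have hj : 0 < 2 ^ j * τ := by positivity
    have h1 := cut_en hj hd he hB hU hL hu (prj_pj hS (2 ^ j * τ))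
    rw [X1_pj hS hB] at h1
    refine h1.trans (le_of_eq ?_)
    rw [ha, hb, div_pow, div_pow]
    ring
  calc (avg C fun z => ∑ i, if τ ^ 2 < D z i then D z i ^ 2 else 0)
      ≤ avg C fun z => ∑ i, 4 * ∑ j ∈ range J,
          if (2 ^ j * τ) ^ 2 < D z i then (2 ^ j * τ) ^ 2 * D z i else 0 := by
        refine avg_mono fun z hz => sum_le_sum fun i _ => ?_
        split_ifs with hi
        · exact dy_le hτ hi (hJ z hz i)
        · have := (hS z hz).nn i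
          refine mul_nonneg (by norm_num) (sum_nonneg fun j _ => ?_)
          split_ifs <;> positivity
    _ = 4 * ∑ j ∈ range J, (2 ^ j * τ) ^ 2 *
          avg C fun z => ∑ i, if (2 ^ j * τ) ^ 2 < D z i then D z i else 0 := by
        have e1 : ∀ z, (∑ i, 4 * ∑ j ∈ range J,
            if (2 ^ j * τ) ^ 2 < D z i then (2 ^ j * τ) ^ 2 * D z i else 0) =
            4 * ∑ j ∈ range J, (2 ^ j * τ) ^ 2 *
              ∑ i, if (2 ^ j * τ) ^ 2 < D z i then D z i else 0 := by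
          intro z
          rw [← mul_sum, sum_comm]
          congr 1
          refine sum_congr rfl fun j _ => ?_
          rw [mul_sum]
          exact sum_congr rfl fun i _ => by split_ifs <;> ring
        rw [avg_congr fun z _ => e1 z, avg_mul_left, avg_sum]
        congr 1
        exact sum_congr rfl fun j _ => avg_mul_left _ _ _
    _ ≤ 4 * ∑ j ∈ range J, (2 ^ j * τ) ^ 2 * (a / (2 ^ j * τ) ^ 8 + b / (2 ^ j * τ) ^ 4) := by
        refine mul_le_mul_of_nonneg_left (sum_le_sum fun j _ => ?_) (by norm_num)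
        exact mul_le_mul_of_nonneg_left (key j) (sq_nonneg _)
    _ ≤ 4 * (2 * (a / τ ^ 6 + b / τ ^ 2)) :=
        mul_le_mul_of_nonneg_left (geo_le hτ ha0 hb0 J) (by norm_num)
    _ = _ := by ring

end four

end

end Vale.Agent.P141.H482
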