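import Vale.Agent.P141.H482.LCap
import Vale.Agent.P141.H228.GaugeI

/-!
# P141, line (A), (TI): the caps in the gauge with a static first slot

* `capsG_of` : `H408.Caps` with `2 th ≤ cB` and the cap of `b` give `H228.Gauge.CapsG`;
* `LCapG`, `lcapG` : the leaf in the quantifiers of `H408.PairQ`;
* `lcapG688` : the same in the letters of `H688.LeafC`, third slot not normalised.
-/

namespace Vale.Agent.P141.H482.LCap

open Finset Matrix
open Vale.Agent.P075 (Ix val)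
open Vale.Agent.P141.PL (Pt iv ix cx mem_iv ix_ix)
open Vale.Agent.P141.PL.H315 (Tri)
open Vale.Agent.P141.H48 (US ES BSl)
open Vale.Agent.P141.H103 (un QW)
open Vale.Agent.P141.H205
open Vale.Agent.P141.H677
open Vale.Agent.P141.H215 (capV)
open Vale.Agent.P141.H305 (Cls ClsM kapM)
open Vale.Agent.P141.H401
open Vale.Agent.P141.H408 (PairQ Caps)
open Vale.Agent.P141.H228.Gauge (CapsG)

noncomputable section

open scoped Classical

section fam

variable {ι : Type} [Fintype ι] [DecidableEq ι]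

/-- **The caps of the definite families in the gauge**, third slot times `c`. -/
theorem capsG_all {p : H401.Num} {n K : ℕ} {ez s r P cP be c τ cC' : ℝ}
    {F1 F2 F3 : ℕ → Pt → ℝ} {Q1 Q2 Q3 : ℕ → Pt → Prop} {o : ℤ} {x : Pt} {U : Tri}
    {g : ℤ → ℤ → ℝ} {u v : ℤ → ℤ → ι → ℝ} (ht : 0 < p.t) (hs : 0 < s) (hr : 1 ≤ r)
    (hez : 0 < ez) (hK : K ≤ n) (hcls : Cls K x s r P U g u v) (q2 : BSl n ez cP F2 Q2)
    (hbe : 0 < be) (hbe1 : be ≤ 1) (hB : 2 * p.th s r ^ 2 ≤ τ ^ 2)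
    (hC : c ^ 2 * (3 * capV p.Lm s ez) ≤ cC' ^ 2) :
    CapsG (p.al U K) o K (cx K x) be (p.lam s r) u (cA p s r U K g F1 Q1)
      (cb p s r U K u F3 Q3) (fun x0 k z w => c • mC p U K v F2 x0 k z w) τ cC' := by
  have hA : p.th s r ^ 2 ≤ τ ^ 2 := by nlinarith [sq_nonneg (p.th s r)]
  have h := caps_all (F1 := F1) (F3 := F3) (Q1 := Q1) (Q3 := Q3) (o := o) (c := c) (u := u)
    (g := g) (v := v) (cA' := τ) (cB' := τ) (cC' := cC') ht hs hr hez hK hcls q2 hbe hbe1 hA hB hC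
  refine ⟨h.capA, fun x0 k _ m _ => ?_, h.capC⟩
  have h1 := psd_capS (capB_c p s r U K u F3 Q3 x0 k m.2.2 m.2.1)
  have h2 := h1.smul (zero_le_two (α := ℝ))
  rw [smul_sub, smul_smul] at h2
  exact psd_up hB h2

/-- **LEAF: caps in the gauge.** -/
def LCapG : Prop := PairQ fun _ _ _ p _ ez F1 F2 F3 o K x s r U g u v Q1 _ Q3 _ =>
  CapsG (p.al U K) o K (cx K x) (H408.beI p r) (p.lam s r) u (cA p s r U K g F1 Q1)
    (cb p s r U K u F3 Q3) (H408.C1 p ez U K v F2) (H408.tauI p s r) (H408.cCI p s r)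

theorem lcapG : LCapG := by
  intro a _ _
  refine ⟨1, one_pos, fun e0 he0 _ => ⟨1, one_pos, fun k8 _ _ => ⟨1, one_pos, fun k3 _ _ => ?_⟩⟩⟩
  intro δ _
  refine ⟨1, 1, one_pos, one_pos, fun c _ _ d hd hd1 Kt e cP L _ _ _ _ => ⟨1, zero_le_one, ?_⟩⟩
  intro t ht ht1 n ez F1 F2 F3 _ _ _ o _ K hK x ι _ _ s r U g' u v hs hr hcls Q1 Q2 Q3 _ q2 _ hez
  set p : H401.Num := ⟨a, e0, k8, k3, c, d, Kt, e, cP, L, 1, t⟩ with hp
  have hth : (0 : ℝ) < p.th s r := H401.Num.th_pos ht hs hr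
  have hy : 0 < p.t / r := div_pos ht (by linarith)
  have hy1 : p.t / r ≤ 1 := (div_le_self ht.le hr).trans ht1
  exact capsG_all (p := p) (Q1 := Q1) (Q3 := Q3) (F1 := F1) (F3 := F3) (o := o)
    (be := H408.beI p r) (c := (√ez)⁻¹) (τ := H408.tauI p s r)
    (cC' := H408.cCI p s r) ht hs hr hez hK hcls.toCls q2
    (Real.rpow_pos_of_pos hy _) (Real.rpow_le_one hy.le hy1 (by
      show 0 ≤ e0 / 2
      linarith)) (by unfold H408.tauI; nlinarith)
    (capC_num' (p := p) ht ht1 hd1 hs hr hez)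

/-- the caps in the gauge, third slot not normalised -/
def LCapG688 : H688.StL := fun _ι _ _ p _ C0 C _ ez _ _ _ o K x s r U _ u _ A b Cf =>
  CapsG (p.al U K) o K (cx K x) (H688.wB p r) (p.lam s r) u A b Cf (C0 * p.th s r)
    (H688.capC p C s r ez)

theorem lcapG688 : H688.LeafC H816.FD LCapG688 := by
  intro a _ _
  refine ⟨1, one_pos, fun e0 he0 _ => ⟨1, one_pos, fun k8 _ _ => ⟨1, one_pos, fun k3 _ _ => ?_⟩⟩⟩
  refine ⟨1, 1, one_pos, one_pos, fun c _ _ d hd _ Kt e cP L _ _ _ _ CD _ => ?_⟩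
  refine ⟨2, 4 + d, one_le_two, by linarith, ?_⟩
  intro t ht ht1 n ez F1 F2 F3 _ _ _ hez o _ K hK x ι _ _ s r U g' u v hs hr hcls A b Cf hD
  obtain ⟨Q1, Q2, Q3, _, q2, _, rfl, rfl, rfl⟩ := hD
  set p : H401.Num := ⟨a, e0, k8, k3, c, d, Kt, e, cP, L, CD, t⟩ with hp
  have hth : (0 : ℝ) < p.th s r := H401.Num.th_pos ht hs hr
  have hy : 0 < H688.yy p r := div_pos ht (by linarith)
  have hy1 : H688.yy p r ≤ 1 := (div_le_self ht.le hr).trans ht1
  have h1 := capsG_all (p := p) (Q1 := Q1) (Q3 := Q3) (F1 := F1) (F3 := F3) (o := o)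
    (be := H688.wB p r) (c := 1) (τ := 2 * p.th s r)
    (cC' := H688.capC p (4 + d) s r ez) ht hs hr hez hK hcls.toCls q2
    (Real.rpow_pos_of_pos hy _) (Real.rpow_le_one hy.le hy1 (by
      show 0 ≤ e0 / 2
      linarith)) (by nlinarith)
    (by
      rw [one_pow, one_mul]
      exact capC_num (p := p) ht ht1 hd hs hr hez)
  simp only [one_smul] at h1
  exact h1

end fam

end

end Vale.Agent.P141.H482.LCap
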